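import Crest.Agent.Lib.Bc.BernCert.Pos
/-! Data generated by gen_q4i.py (helper21): a bilinear form and its subdivision tree (row 163, Q4I). -/
set_option autoImplicit false
namespace Crest.Agent.Lib.Bc.Q4I.AlphaData

open Crest.Agent.Lib.Bc.BernCert

/-- the monomials -/
def monos : List Mon := [⟨8,0,0,0⟩,⟨4,0,0,1⟩,⟨0,0,0,2⟩,⟨5,0,1,0⟩,⟨1,0,1,1⟩,⟨2,0,2,0⟩,⟨6,1,0,0⟩,⟨2,1,0,1⟩,⟨3,1,1,0⟩,⟨4,2,0,0⟩]

/-- positive part of the coefficient matrix -/
def cp : List (List ℕ) := [[2340,0,0,0,0,0,0,0,0,0],[0,0,0,0,0,0,0,0,0,0],[1140129792,0,0,0,0,0,0,0,0,0],[296208,0,0,0,0,0,0,0,0,0],[0,0,0,0,0,0,0,0,0,0],[16833024,0,0,0,0,0,0,0,0,0],[0,0,0,0,0,0,0,0,0,0],[32348160,0,0,0,0,0,0,0,0,0],[0,0,0,0,0,0,0,0,0,0],[34432,0,0,0,0,0,0,0,0,0]]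

/-- negative part of the coefficient matrix -/
def cm : List (List ℕ) := [[0,0,0,0,0,0,0,0,0,0],[5868288,0,0,0,0,0,0,0,0,0],[0,0,0,0,0,0,0,0,0,0],[0,0,0,0,0,0,0,0,0,0],[274636800,0,0,0,0,0,0,0,0,0],[0,0,0,0,0,0,0,0,0,0],[8832,0,0,0,0,0,0,0,0,0],[0,0,0,0,0,0,0,0,0,0],[2292480,0,0,0,0,0,0,0,0,0],[0,0,0,0,0,0,0,0,0,0]]

/-- the form -/
def cfg : Cfg := ⟨8, 110, 44, monos, cp, cm⟩

/-- a subtree -/
def Tchunk0 : PT := (PT.X 0 3 PT.L (PT.X 1 3 PT.L PT.L))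

set_option maxRecDepth 1000000 in
theorem chunk0 : check cfg Tchunk0 (child (child (child C4 0 3) 0 2) 0 1) C4 = true := by decide +kernel

/-- a subtree -/
def Tchunk1 : PT := (PT.X 1 2 (PT.X 0 3 PT.L (PT.X 1 3 PT.L PT.L)) PT.L)

set_option maxRecDepth 1000000 in
theorem chunk1 : check cfg Tchunk1 (child (child (child (child C4 0 3) 0 2) 1 0) 1 3) C4 = true := by decide +kernel

/-- a subtree -/
def Tchunk2 : PT := (PT.X 0 3 PT.L PT.L)

set_option maxRecDepth 1000000 in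
theorem chunk2 : check cfg Tchunk2 (child (child (child (child C4 0 3) 0 2) 1 0) 3 1) C4 = true := by decide +kernel

/-- a subtree -/
def Tchunk3 : PT := (PT.X 1 2 (PT.X 0 1 PT.L (PT.X 1 3 PT.L PT.L)) PT.L)

set_option maxRecDepth 1000000 in
theorem chunk3 : check cfg Tchunk3 (child (child (child C4 0 3) 2 0) 1 3) C4 = true := by decide +kernel

/-- a subtree -/
def Tchunk4 : PT := PT.L

set_option maxRecDepth 1000000 in
theorem chunk4 : check cfg Tchunk4 (child (child (child C4 0 3) 2 0) 3 1) C4 = true := by decide +kernel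

/-- a subtree -/
def Tchunk5 : PT := PT.L

set_option maxRecDepth 1000000 in
theorem chunk5 : check cfg Tchunk5 (child (child (child C4 3 0) 1 3) 0 1) C4 = true := by decide +kernel

/-- a subtree -/
def Tchunk6 : PT := (PT.X 1 2 (PT.X 1 3 (PT.X 0 1 PT.L PT.L) PT.L) PT.L)

set_option maxRecDepth 1000000 in
theorem chunk6 : check cfg Tchunk6 (child (child (child C4 3 0) 1 3) 1 0) C4 = true := by decide +kernel

/-- a subtree -/
def Tchunk7 : PT := PT.L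

set_option maxRecDepth 1000000 in
theorem chunk7 : check cfg Tchunk7 (child (child C4 3 0) 3 1) C4 = true := by decide +kernel

set_option maxRecDepth 100000 in
/-- the form is nonnegative on the chamber -/
theorem pos : Pos cfg C4 C4 :=
  (pos_X cfg _ _ 0 3 (by decide)
 (pos_X cfg _ _ 0 2 (by decide)
 (pos_X cfg _ _ 0 1 (by decide)
 (pos_of_check cfg Tchunk0 _ _ chunk0)
 (pos_X cfg _ _ 1 3 (by decide)
 (pos_of_check cfg Tchunk1 _ _ chunk1)
 (pos_of_check cfg Tchunk2 _ _ chunk2)))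
 (pos_X cfg _ _ 1 3 (by decide)
 (pos_of_check cfg Tchunk3 _ _ chunk3)
 (pos_of_check cfg Tchunk4 _ _ chunk4)))
 (pos_X cfg _ _ 1 3 (by decide)
 (pos_X cfg _ _ 0 1 (by decide)
 (pos_of_check cfg Tchunk5 _ _ chunk5)
 (pos_of_check cfg Tchunk6 _ _ chunk6))
 (pos_of_check cfg Tchunk7 _ _ chunk7)))

end Crest.Agent.Lib.Bc.Q4I.AlphaData
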