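import Crest.Agent.Lib.Bc.BernCert.Bridge
/-! Data generated by gen_q4i.py (helper21): the identity between the relabelling average and the form (row 163, Q4I). -/
set_option autoImplicit false
namespace Crest.Agent.Lib.Bc.Q4I.BridgeData

open Crest.Agent.Lib.Bc.BernCert Crest.Agent.Lib.Bc.BernCert.Bridge Crest.Agent.Lib.Bc.SymAvg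
open Crest.Agent.Lib.Bc.PolyFast (E)

/-- `27648 * Pf (4 e₁) ((128/3) e₂) (1024 e₃)` as an expression -/
noncomputable def eP : E :=
  (.num (-57915) * e1E4 ^ 0 * e2E4 ^ 0 * e3E4 ^ 0) + (.num (40500311040) * e1E4 ^ 0 * e2E4 ^ 0 * e3E4 ^ 1) + (.num (-498533760) * e1E4 ^ 0 * e2E4 ^ 1 * e3E4 ^ 0) + (.num (923407220736) * e1E4 ^ 0 * e2E4 ^ 1 * e3E4 ^ 1) + (.num (-82493521920) * e1E4 ^ 0 * e2E4 ^ 2 * e3E4 ^ 0) + (.num (-32131321430016) * e1E4 ^ 0 * e2E4 ^ 2 * e3E4 ^ 1) + (.num (26994540544) * e1E4 ^ 0 * e2E4 ^ 3 * e3E4 ^ 0) + (.num (-4058744094720) * e1E4 ^ 0 * e2E4 ^ 3 * e3E4 ^ 1) + (.num (679141703680) * e1E4 ^ 0 * e2E4 ^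 4 * e3E4 ^ 0) + (.num (3779622) * e1E4 ^ 1 * e2E4 ^ 0 * e3E4 ^ 0) + (.num (-973987835904) * e1E4 ^ 1 * e2E4 ^ 0 * e3E4 ^ 1) + (.num (12371198976) * e1E4 ^ 1 * e2E4 ^ 1 * e3E4 ^ 0) + (.num (-10285400457216) * e1E4 ^ 1 * e2E4 ^ 1 * e3E4 ^ 1) + (.num (1288641183744) * e1E4 ^ 1 * e2E4 ^ 2 * e3E4 ^ 0) + (.num (459369602875392) * e1E4 ^ 1 * e2E4 ^ 2 * e3E4 ^ 1) + (.num (-803024666624) * e1E4 ^ 1 * e2E4 ^ 3 * e3E4 ^ 0) + (.num (32469952757760) * e1E4 ^ 1 * e2E4 ^ 3 * e3E4 ^ 1) + (.num (-7610145177600) * e1E4 ^ 1 * e2E4 ^ 4 * e3E4 ^ 0) + (.num (-63644400) * e1E4 ^ 2 * e2E4 ^ 0 * e3E4 ^ 0) + (.num (10170724663296) * e1E4 ^ 2 *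 e2E4 ^ 0 * e3E4 ^ 1) + (.num (-131721080832) * e1E4 ^ 2 * e2E4 ^ 1 * e3E4 ^ 0) + (.num (16155383169024) * e1E4 ^ 2 * e2E4 ^ 1 * e3E4 ^ 1) + (.num (-8845601931264) * e1E4 ^ 2 * e2E4 ^ 2 * e3E4 ^ 0) + (.num (-2446885549768704) * e1E4 ^ 2 * e2E4 ^ 2 * e3E4 ^ 1) + (.num (7347095207936) * e1E4 ^ 2 * e2E4 ^ 3 * e3E4 ^ 0) + (.num (-64939905515520) * e1E4 ^ 2 * e2E4 ^ 3 * e3E4 ^ 1) + (.num (28282359644160) * e1E4 ^ 2 * e2E4 ^ 4 * e3E4 ^ 0) + (.num (707690304) * e1E4 ^ 3 * e2E4 ^ 0 * e3E4 ^ 0) + (.num (-57548859899904) * e1E4 ^ 3 * e2E4 ^ 0 * e3E4 ^ 1) + (.num (787785302016) * e1E4 ^ 3 * e2E4 ^ 1 * e3E4 ^ 0) + (.num (209099346149376)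 * e1E4 ^ 3 * e2E4 ^ 1 * e3E4 ^ 1) + (.num (33649517395968) * e1E4 ^ 3 * e2E4 ^ 2 * e3E4 ^ 0) + (.num (5750961746214912) * e1E4 ^ 3 * e2E4 ^ 2 * e3E4 ^ 1) + (.num (-29158734299136) * e1E4 ^ 3 * e2E4 ^ 3 * e3E4 ^ 0) + (.num (-34832184770560) * e1E4 ^ 3 * e2E4 ^ 4 * e3E4 ^ 0) + (.num (-4698971136) * e1E4 ^ 4 * e2E4 ^ 0 * e3E4 ^ 0) + (.num (190276678582272) * e1E4 ^ 4 * e2E4 ^ 0 * e3E4 ^ 1) + (.num (-2909564485632) * e1E4 ^ 4 * e2E4 ^ 1 * e3E4 ^ 0) + (.num (-1087769992495104) * e1E4 ^ 4 * e2E4 ^ 1 * e3E4 ^ 1) + (.num (-75403748179968) * e1E4 ^ 4 * e2E4 ^ 2 * e3E4 ^ 0) + (.num (-5027714486501376) * e1E4 ^ 4 * e2E4 ^ 2 * e3E4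 ^ 1) + (.num (51630607171584) * e1E4 ^ 4 * e2E4 ^ 3 * e3E4 ^ 0) + (.num (19986490368) * e1E4 ^ 5 * e2E4 ^ 0 * e3E4 ^ 0) + (.num (-373504297402368) * e1E4 ^ 5 * e2E4 ^ 0 * e3E4 ^ 1) + (.num (6869966192640) * e1E4 ^ 5 * e2E4 ^ 1 * e3E4 ^ 0) + (.num (1947294819680256) * e1E4 ^ 5 * e2E4 ^ 1 * e3E4 ^ 1) + (.num (98662210338816) * e1E4 ^ 5 * e2E4 ^ 2 * e3E4 ^ 0) + (.num (-32264868069376) * e1E4 ^ 5 * e2E4 ^ 3 * e3E4 ^ 0) + (.num (-56440627200) * e1E4 ^ 6 * e2E4 ^ 0 * e3E4 ^ 0) + (.num (422606876442624) * e1E4 ^ 6 * e2E4 ^ 0 * e3E4 ^ 1) + (.num (-10364295315456) * e1E4 ^ 6 * e2E4 ^ 1 * e3E4 ^ 0) + (.num (-1182708365524992) *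 e1E4 ^ 6 * e2E4 ^ 1 * e3E4 ^ 1) + (.num (-69643700011008) * e1E4 ^ 6 * e2E4 ^ 2 * e3E4 ^ 0) + (.num (107000193024) * e1E4 ^ 7 * e2E4 ^ 0 * e3E4 ^ 0) + (.num (-251544968626176) * e1E4 ^ 7 * e2E4 ^ 0 * e3E4 ^ 1) + (.num (9640196702208) * e1E4 ^ 7 * e2E4 ^ 1 * e3E4 ^ 0) + (.num (20473706446848) * e1E4 ^ 7 * e2E4 ^ 2 * e3E4 ^ 0) + (.num (-134473678848) * e1E4 ^ 8 * e2E4 ^ 0 * e3E4 ^ 0) + (.num (60488876556288) * e1E4 ^ 8 * e2E4 ^ 0 * e3E4 ^ 1) + (.num (-5020883877888) * e1E4 ^ 8 * e2E4 ^ 1 * e3E4 ^ 0) + (.num (107176919040) * e1E4 ^ 9 * e2E4 ^ 0 * e3E4 ^ 0) + (.num (1116305620992) * e1E4 ^ 9 * e2E4 ^ 1 * e3E4 ^ 0) + (.num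 (-48879894528) * e1E4 ^ 10 * e2E4 ^ 0 * e3E4 ^ 0) + (.num (9682550784) * e1E4 ^ 11 * e2E4 ^ 0 * e3E4 ^ 0)

/-- the table of the relabelling average -/
def rows : List Row := [
  ⟨38730203136, 11, 0, 0, 0, 0, [((66 : ℤ), (⟨0,0,1,2⟩ : Mon)), ((-66 : ℤ), (⟨0,1,3,0⟩ : Mon)), ((-198 : ℤ), (⟨0,2,1,1⟩ : Mon)), ((66 : ℤ), (⟨0,4,1,0⟩ : Mon)), ((-198 : ℤ), (⟨1,0,2,1⟩ : Mon)), ((-198 : ℤ), (⟨1,1,0,2⟩ : Mon)), ((396 : ℤ), (⟨1,2,2,0⟩ : Mon)), ((264 : ℤ), (⟨1,3,0,1⟩ : Mon)), ((-66 : ℤ), (⟨1,5,0,0⟩ : Mon)), ((132 : ℤ), (⟨2,0,3,0⟩ : Mon)), ((792 : ℤ), (⟨2,1,1,1⟩ : Mon)), ((-660 : ℤ), (⟨2,3,1,0⟩ : Mon)), ((132 : ℤ), (⟨3,0,0,2⟩ : Mon)),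 ((-660 : ℤ), (⟨3,1,2,0⟩ : Mon)), ((-660 : ℤ), (⟨3,2,0,1⟩ : Mon)), ((330 : ℤ), (⟨3,4,0,0⟩ : Mon)), ((-330 : ℤ), (⟨4,0,1,1⟩ : Mon)), ((990 : ℤ), (⟨4,2,1,0⟩ : Mon)), ((198 : ℤ), (⟨5,0,2,0⟩ : Mon)), ((396 : ℤ), (⟨5,1,0,1⟩ : Mon)), ((-462 : ℤ), (⟨5,3,0,0⟩ : Mon)), ((-462 : ℤ), (⟨6,1,1,0⟩ : Mon)), ((-66 : ℤ), (⟨7,0,0,1⟩ : Mon)), ((264 : ℤ), (⟨7,2,0,0⟩ : Mon)), ((66 : ℤ), (⟨8,0,1,0⟩ : Mon)), ((-66 : ℤ), (⟨9,1,0,0⟩ : Mon)), ((6 : ℤ), (⟨11,0,0,0⟩ : Mon))]⟩,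
  ⟨14673764155392, 10, 1, 0, 0, 0, [((-22 : ℤ), (⟨0,0,1,2⟩ : Mon)), ((22 : ℤ), (⟨0,1,3,0⟩ : Mon)), ((66 : ℤ), (⟨0,2,1,1⟩ : Mon)), ((-22 : ℤ), (⟨0,4,1,0⟩ : Mon)), ((46 : ℤ), (⟨1,0,2,1⟩ : Mon)), ((46 : ℤ), (⟨1,1,0,2⟩ : Mon)), ((-102 : ℤ), (⟨1,2,2,0⟩ : Mon)), ((-68 : ℤ), (⟨1,3,0,1⟩ : Mon)), ((18 : ℤ), (⟨1,5,0,0⟩ : Mon)), ((-24 : ℤ), (⟨2,0,3,0⟩ : Mon)), ((-144 : ℤ), (⟨2,1,1,1⟩ : Mon)), ((140 : ℤ), (⟨2,3,1,0⟩ : Mon)), ((-14 : ℤ), (⟨3,0,0,2⟩ : Mon)), ((100 : ℤ), (⟨3,1,2,0⟩ : Mon)), ((100 : ℤ), (⟨3,2,0,1⟩ : Mon)), ((-60 : ℤ), (⟨3,4,0,0⟩ : Mon)), ((30 : ℤ), (⟨4,0,1,1⟩ : Mon)), ((-130 : ℤ), (⟨4,2,1,0⟩ : Mon)), ((-16 : ℤ), (⟨5,0,2,0⟩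 : Mon)), ((-32 : ℤ), (⟨5,1,0,1⟩ : Mon)), ((54 : ℤ), (⟨5,3,0,0⟩ : Mon)), ((34 : ℤ), (⟨6,1,1,0⟩ : Mon)), ((2 : ℤ), (⟨7,0,0,1⟩ : Mon)), ((-18 : ℤ), (⟨7,2,0,0⟩ : Mon)), ((-2 : ℤ), (⟨8,0,1,0⟩ : Mon)), ((2 : ℤ), (⟨9,1,0,0⟩ : Mon))]⟩,
  ⟨-195519578112, 10, 0, 0, 0, 1, [((-60 : ℤ), (⟨1,0,2,1⟩ : Mon)), ((-60 : ℤ), (⟨1,1,0,2⟩ : Mon)), ((90 : ℤ), (⟨1,2,2,0⟩ : Mon)), ((60 : ℤ), (⟨1,3,0,1⟩ : Mon)), ((-12 : ℤ), (⟨1,5,0,0⟩ : Mon)), ((60 : ℤ), (⟨2,0,3,0⟩ : Mon)), ((360 : ℤ), (⟨2,1,1,1⟩ : Mon)), ((-240 : ℤ), (⟨2,3,1,0⟩ : Mon)), ((90 : ℤ), (⟨3,0,0,2⟩ : Mon)), ((-360 : ℤ), (⟨3,1,2,0⟩ : Mon)), ((-360 : ℤ), (⟨3,2,0,1⟩ : Mon)), ((150 : ℤ),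 (⟨3,4,0,0⟩ : Mon)), ((-240 : ℤ), (⟨4,0,1,1⟩ : Mon)), ((600 : ℤ), (⟨4,2,1,0⟩ : Mon)), ((150 : ℤ), (⟨5,0,2,0⟩ : Mon)), ((300 : ℤ), (⟨5,1,0,1⟩ : Mon)), ((-300 : ℤ), (⟨5,3,0,0⟩ : Mon)), ((-360 : ℤ), (⟨6,1,1,0⟩ : Mon)), ((-60 : ℤ), (⟨7,0,0,1⟩ : Mon)), ((210 : ℤ), (⟨7,2,0,0⟩ : Mon)), ((60 : ℤ), (⟨8,0,1,0⟩ : Mon)), ((-60 : ℤ), (⟨9,1,0,0⟩ : Mon)), ((6 : ℤ), (⟨11,0,0,0⟩ : Mon))]⟩,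
  ⟨372635967946752, 9, 2, 0, 0, 0, [((-22 : ℤ), (⟨0,0,1,2⟩ : Mon)), ((10 : ℤ), (⟨0,1,3,0⟩ : Mon)), ((-6 : ℤ), (⟨0,2,1,1⟩ : Mon)), ((14 : ℤ), (⟨0,4,1,0⟩ : Mon)), ((66 : ℤ), (⟨1,0,2,1⟩ : Mon)), ((30 : ℤ), (⟨1,1,0,2⟩ : Mon)), ((-24 : ℤ), (⟨1,2,2,0⟩ : Mon)), ((20 : ℤ), (⟨1,3,0,1⟩ : Mon)), ((-14 : ℤ), (⟨1,5,0,0⟩ : Mon)), ((-38 : ℤ), (⟨2,0,3,0⟩ : Mon)), ((-120 : ℤ), (⟨2,1,1,1⟩ : Mon)), ((-14 : ℤ), (⟨2,3,1,0⟩ : Mon)), ((-26 : ℤ), (⟨3,0,0,2⟩ : Mon)), ((94 : ℤ), (⟨3,1,2,0⟩ : Mon)), ((22 : ℤ), (⟨3,2,0,1⟩ : Mon)), ((28 : ℤ), (⟨3,4,0,0⟩ : Mon)), ((56 : ℤ), (⟨4,0,1,1⟩ : Mon)), ((-42 : ℤ), (⟨4,2,1,0⟩ : Mon)), ((-30 : ℤ), (⟨5,0,2,0⟩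 : Mon)), ((-24 : ℤ), (⟨5,1,0,1⟩ : Mon)), ((-14 : ℤ), (⟨5,3,0,0⟩ : Mon)), ((28 : ℤ), (⟨6,1,1,0⟩ : Mon)), ((4 : ℤ), (⟨7,0,0,1⟩ : Mon)), ((2 : ℤ), (⟨7,2,0,0⟩ : Mon)), ((-4 : ℤ), (⟨8,0,1,0⟩ : Mon))]⟩,
  ⟨1484534122020864, 9, 1, 1, 0, 0, [((22 : ℤ), (⟨0,0,1,2⟩ : Mon)), ((-16 : ℤ), (⟨0,1,3,0⟩ : Mon)), ((-30 : ℤ), (⟨0,2,1,1⟩ : Mon)), ((4 : ℤ), (⟨0,4,1,0⟩ : Mon)), ((-46 : ℤ), (⟨1,0,2,1⟩ : Mon)), ((-28 : ℤ), (⟨1,1,0,2⟩ : Mon)), ((48 : ℤ), (⟨1,2,2,0⟩ : Mon)), ((14 : ℤ), (⟨1,3,0,1⟩ : Mon)), ((24 : ℤ), (⟨2,0,3,0⟩ : Mon)), ((90 : ℤ), (⟨2,1,1,1⟩ : Mon)), ((-32 : ℤ), (⟨2,3,1,0⟩ : Mon)), ((14 : ℤ), (⟨3,0,0,2⟩ : Mon)), ((-64 : ℤ), (⟨3,1,2,0⟩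 : Mon)), ((-28 : ℤ), (⟨3,2,0,1⟩ : Mon)), ((-30 : ℤ), (⟨4,0,1,1⟩ : Mon)), ((40 : ℤ), (⟨4,2,1,0⟩ : Mon)), ((16 : ℤ), (⟨5,0,2,0⟩ : Mon)), ((14 : ℤ), (⟨5,1,0,1⟩ : Mon)), ((-16 : ℤ), (⟨6,1,1,0⟩ : Mon)), ((-2 : ℤ), (⟨7,0,0,1⟩ : Mon)), ((2 : ℤ), (⟨8,0,1,0⟩ : Mon))]⟩,
  ⟨-66116193878016, 9, 1, 0, 0, 1, [((20 : ℤ), (⟨1,0,2,1⟩ : Mon)), ((20 : ℤ), (⟨1,1,0,2⟩ : Mon)), ((-30 : ℤ), (⟨1,2,2,0⟩ : Mon)), ((-20 : ℤ), (⟨1,3,0,1⟩ : Mon)), ((4 : ℤ), (⟨1,5,0,0⟩ : Mon)), ((-14 : ℤ), (⟨2,0,3,0⟩ : Mon)), ((-84 : ℤ), (⟨2,1,1,1⟩ : Mon)), ((62 : ℤ), (⟨2,3,1,0⟩ : Mon)), ((-12 : ℤ), (⟨3,0,0,2⟩ : Mon)), ((66 : ℤ), (⟨3,1,2,0⟩ : Mon)), ((66 : ℤ), (⟨3,2,0,1⟩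 : Mon)), ((-32 : ℤ), (⟨3,4,0,0⟩ : Mon)), ((26 : ℤ), (⟨4,0,1,1⟩ : Mon)), ((-92 : ℤ), (⟨4,2,1,0⟩ : Mon)), ((-14 : ℤ), (⟨5,0,2,0⟩ : Mon)), ((-28 : ℤ), (⟨5,1,0,1⟩ : Mon)), ((40 : ℤ), (⟨5,3,0,0⟩ : Mon)), ((30 : ℤ), (⟨6,1,1,0⟩ : Mon)), ((2 : ℤ), (⟨7,0,0,1⟩ : Mon)), ((-16 : ℤ), (⟨7,2,0,0⟩ : Mon)), ((-2 : ℤ), (⟨8,0,1,0⟩ : Mon)), ((2 : ℤ), (⟨9,1,0,0⟩ : Mon))]⟩,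
  ⟨428707676160, 9, 0, 0, 0, 2, [((18 : ℤ), (⟨2,0,3,0⟩ : Mon)), ((108 : ℤ), (⟨2,1,1,1⟩ : Mon)), ((-54 : ℤ), (⟨2,3,1,0⟩ : Mon)), ((54 : ℤ), (⟨3,0,0,2⟩ : Mon)), ((-162 : ℤ), (⟨3,1,2,0⟩ : Mon)), ((-162 : ℤ), (⟨3,2,0,1⟩ : Mon)), ((54 : ℤ), (⟨3,4,0,0⟩ : Mon)), ((-162 : ℤ), (⟨4,0,1,1⟩ : Mon)), ((324 : ℤ), (⟨4,2,1,0⟩ : Mon)), ((108 : ℤ), (⟨5,0,2,0⟩ : Mon)), ((216 : ℤ), (⟨5,1,0,1⟩ : Mon)), ((-180 : ℤ), (⟨5,3,0,0⟩ : Mon)), ((-270 : ℤ), (⟨6,1,1,0⟩ : Mon)), ((-54 : ℤ), (⟨7,0,0,1⟩ : Mon)), ((162 : ℤ), (⟨7,2,0,0⟩ : Mon)), ((54 : ℤ), (⟨8,0,1,0⟩ : Mon)), ((-54 : ℤ), (⟨9,1,0,0⟩ : Mon)), ((6 : ℤ), (⟨11,0,0,0⟩ : Mon))]⟩,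
  ⟨1834028403523584, 8, 3, 0, 0, 0, [((2 : ℤ), (⟨0,0,1,2⟩ : Mon)), ((-26 : ℤ), (⟨0,1,3,0⟩ : Mon)), ((18 : ℤ), (⟨0,2,1,1⟩ : Mon)), ((-10 : ℤ), (⟨0,4,1,0⟩ : Mon)), ((-30 : ℤ), (⟨1,0,2,1⟩ : Mon)), ((42 : ℤ), (⟨1,1,0,2⟩ : Mon)), ((60 : ℤ), (⟨1,2,2,0⟩ : Mon)), ((-40 : ℤ), (⟨1,3,0,1⟩ : Mon)), ((10 : ℤ), (⟨1,5,0,0⟩ : Mon)), ((28 : ℤ), (⟨2,0,3,0⟩ : Mon)), ((-24 : ℤ), (⟨2,1,1,1⟩ : Mon)), ((-20 : ℤ), (⟨2,3,1,0⟩ : Mon)), ((-36 : ℤ), (⟨3,0,0,2⟩ : Mon)), ((-60 : ℤ), (⟨3,1,2,0⟩ : Mon)), ((60 : ℤ), (⟨3,2,0,1⟩ : Mon)), ((-10 : ℤ), (⟨3,4,0,0⟩ : Mon)), ((30 : ℤ), (⟨4,0,1,1⟩ : Mon)), ((30 : ℤ), (⟨4,2,1,0⟩ : Mon)), ((6 : ℤ), (⟨5,0,2,0⟩ :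 Mon)), ((-36 : ℤ), (⟨5,1,0,1⟩ : Mon)), ((2 : ℤ), (⟨5,3,0,0⟩ : Mon)), ((-6 : ℤ), (⟨6,1,1,0⟩ : Mon)), ((6 : ℤ), (⟨7,0,0,1⟩ : Mon))]⟩,
  ⟨-4543106129068032, 8, 2, 1, 0, 0, [((10 : ℤ), (⟨0,0,1,2⟩ : Mon)), ((8 : ℤ), (⟨0,1,3,0⟩ : Mon)), ((-6 : ℤ), (⟨0,2,1,1⟩ : Mon)), ((-2 : ℤ), (⟨0,4,1,0⟩ : Mon)), ((-8 : ℤ), (⟨1,0,2,1⟩ : Mon)), ((-34 : ℤ), (⟨1,1,0,2⟩ : Mon)), ((-17 : ℤ), (⟨1,2,2,0⟩ : Mon)), ((16 : ℤ), (⟨1,3,0,1⟩ : Mon)), ((-5 : ℤ), (⟨2,0,3,0⟩ : Mon)), ((44 : ℤ), (⟨2,1,1,1⟩ : Mon)), ((9 : ℤ), (⟨2,3,1,0⟩ : Mon)), ((20 : ℤ), (⟨3,0,0,2⟩ : Mon)), ((11 : ℤ), (⟨3,1,2,0⟩ : Mon)), ((-37 : ℤ), (⟨3,2,0,1⟩ : Mon)), ((-19 : ℤ), (⟨4,0,1,1⟩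 : Mon)), ((-6 : ℤ), (⟨4,2,1,0⟩ : Mon)), ((-1 : ℤ), (⟨5,0,2,0⟩ : Mon)), ((20 : ℤ), (⟨5,1,0,1⟩ : Mon)), ((1 : ℤ), (⟨6,1,1,0⟩ : Mon)), ((-3 : ℤ), (⟨7,0,0,1⟩ : Mon))]⟩,
  ⟨-1344124395454464, 8, 2, 0, 0, 1, [((20 : ℤ), (⟨1,0,2,1⟩ : Mon)), ((4 : ℤ), (⟨1,1,0,2⟩ : Mon)), ((2 : ℤ), (⟨1,2,2,0⟩ : Mon)), ((12 : ℤ), (⟨1,3,0,1⟩ : Mon)), ((-4 : ℤ), (⟨1,5,0,0⟩ : Mon)), ((-20 : ℤ), (⟨2,0,3,0⟩ : Mon)), ((-56 : ℤ), (⟨2,1,1,1⟩ : Mon)), ((-16 : ℤ), (⟨2,3,1,0⟩ : Mon)), ((-22 : ℤ), (⟨3,0,0,2⟩ : Mon)), ((56 : ℤ), (⟨3,1,2,0⟩ : Mon)), ((8 : ℤ), (⟨3,2,0,1⟩ : Mon)), ((18 : ℤ), (⟨3,4,0,0⟩ : Mon)), ((48 : ℤ), (⟨4,0,1,1⟩ : Mon)), ((-24 : ℤ), (⟨4,2,1,0⟩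 : Mon)), ((-26 : ℤ), (⟨5,0,2,0⟩ : Mon)), ((-20 : ℤ), (⟨5,1,0,1⟩ : Mon)), ((-12 : ℤ), (⟨5,3,0,0⟩ : Mon)), ((24 : ℤ), (⟨6,1,1,0⟩ : Mon)), ((4 : ℤ), (⟨7,0,0,1⟩ : Mon)), ((2 : ℤ), (⟨7,2,0,0⟩ : Mon)), ((-4 : ℤ), (⟨8,0,1,0⟩ : Mon))]⟩,
  ⟨-3863625961832448, 8, 1, 1, 1, 0, [((-42 : ℤ), (⟨0,0,1,2⟩ : Mon)), ((42 : ℤ), (⟨0,2,1,1⟩ : Mon)), ((42 : ℤ), (⟨1,0,2,1⟩ : Mon)), ((84 : ℤ), (⟨1,1,0,2⟩ : Mon)), ((-42 : ℤ), (⟨1,3,0,1⟩ : Mon)), ((-126 : ℤ), (⟨2,1,1,1⟩ : Mon)), ((-42 : ℤ), (⟨3,0,0,2⟩ : Mon)), ((84 : ℤ), (⟨3,2,0,1⟩ : Mon)), ((42 : ℤ), (⟨4,0,1,1⟩ : Mon)), ((-42 : ℤ), (⟨5,1,0,1⟩ : Mon)), ((6 : ℤ), (⟨7,0,0,1⟩ : Mon))]⟩,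
  ⟨-5767039020957696, 8, 1, 1, 0, 1, [((-20 : ℤ), (⟨1,0,2,1⟩ : Mon)), ((-12 : ℤ), (⟨1,1,0,2⟩ : Mon)), ((14 : ℤ), (⟨1,2,2,0⟩ : Mon)), ((4 : ℤ), (⟨1,3,0,1⟩ : Mon)), ((14 : ℤ), (⟨2,0,3,0⟩ : Mon)), ((52 : ℤ), (⟨2,1,1,1⟩ : Mon)), ((-14 : ℤ), (⟨2,3,1,0⟩ : Mon)), ((12 : ℤ), (⟨3,0,0,2⟩ : Mon)), ((-42 : ℤ), (⟨3,1,2,0⟩ : Mon)), ((-18 : ℤ), (⟨3,2,0,1⟩ : Mon)), ((-26 : ℤ), (⟨4,0,1,1⟩ : Mon)), ((28 : ℤ), (⟨4,2,1,0⟩ : Mon)), ((14 : ℤ), (⟨5,0,2,0⟩ : Mon)), ((12 : ℤ), (⟨5,1,0,1⟩ : Mon)), ((-14 : ℤ), (⟨6,1,1,0⟩ : Mon)), ((-2 : ℤ), (⟨7,0,0,1⟩ : Mon)), ((2 : ℤ), (⟨8,0,1,0⟩ : Mon))]⟩,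
  ⟨127257467682816, 8, 1, 0, 0, 2, [((-6 : ℤ), (⟨2,0,3,0⟩ : Mon)), ((-36 : ℤ), (⟨2,1,1,1⟩ : Mon)), ((18 : ℤ), (⟨2,3,1,0⟩ : Mon)), ((-10 : ℤ), (⟨3,0,0,2⟩ : Mon)), ((38 : ℤ), (⟨3,1,2,0⟩ : Mon)), ((38 : ℤ), (⟨3,2,0,1⟩ : Mon)), ((-14 : ℤ), (⟨3,4,0,0⟩ : Mon)), ((22 : ℤ), (⟨4,0,1,1⟩ : Mon)), ((-60 : ℤ), (⟨4,2,1,0⟩ : Mon)), ((-12 : ℤ), (⟨5,0,2,0⟩ : Mon)), ((-24 : ℤ), (⟨5,1,0,1⟩ : Mon)), ((28 : ℤ), (⟨5,3,0,0⟩ : Mon)), ((26 : ℤ), (⟨6,1,1,0⟩ : Mon)), ((2 : ℤ), (⟨7,0,0,1⟩ : Mon)), ((-14 : ℤ), (⟨7,2,0,0⟩ : Mon)), ((-2 : ℤ), (⟨8,0,1,0⟩ : Mon)), ((2 : ℤ), (⟨9,1,0,0⟩ : Mon))]⟩,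
  ⟨-537894715392, 8, 0, 0, 0, 3, [((24 : ℤ), (⟨3,0,0,2⟩ : Mon)), ((-48 : ℤ), (⟨3,1,2,0⟩ : Mon)), ((-48 : ℤ), (⟨3,2,0,1⟩ : Mon)), ((12 : ℤ), (⟨3,4,0,0⟩ : Mon)), ((-96 : ℤ), (⟨4,0,1,1⟩ : Mon)), ((144 : ℤ), (⟨4,2,1,0⟩ : Mon)), ((72 : ℤ), (⟨5,0,2,0⟩ : Mon)), ((144 : ℤ), (⟨5,1,0,1⟩ : Mon)), ((-96 : ℤ), (⟨5,3,0,0⟩ : Mon)), ((-192 : ℤ), (⟨6,1,1,0⟩ : Mon)), ((-48 : ℤ), (⟨7,0,0,1⟩ : Mon)), ((120 : ℤ), (⟨7,2,0,0⟩ : Mon)), ((48 : ℤ), (⟨8,0,1,0⟩ : Mon)), ((-48 : ℤ), (⟨9,1,0,0⟩ : Mon)), ((6 : ℤ), (⟨11,0,0,0⟩ : Mon))]⟩,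
  ⟨3969074690260992, 7, 4, 0, 0, 0, [((34 : ℤ), (⟨0,0,1,2⟩ : Mon)), ((22 : ℤ), (⟨0,1,3,0⟩ : Mon)), ((-18 : ℤ), (⟨0,2,1,1⟩ : Mon)), ((6 : ℤ), (⟨0,4,1,0⟩ : Mon)), ((-46 : ℤ), (⟨1,0,2,1⟩ : Mon)), ((-46 : ℤ), (⟨1,1,0,2⟩ : Mon)), ((-48 : ℤ), (⟨1,2,2,0⟩ : Mon)), ((24 : ℤ), (⟨1,3,0,1⟩ : Mon)), ((-6 : ℤ), (⟨1,5,0,0⟩ : Mon)), ((12 : ℤ), (⟨2,0,3,0⟩ : Mon)), ((72 : ℤ), (⟨2,1,1,1⟩ : Mon)), ((24 : ℤ), (⟨2,3,1,0⟩ : Mon)), ((12 : ℤ), (⟨3,0,0,2⟩ : Mon)), ((-4 : ℤ), (⟨3,1,2,0⟩ : Mon)), ((-32 : ℤ), (⟨3,2,0,1⟩ : Mon)), ((2 : ℤ), (⟨3,4,0,0⟩ : Mon)), ((-16 : ℤ), (⟨4,0,1,1⟩ : Mon)), ((-8 : ℤ), (⟨4,2,1,0⟩ : Mon)), ((4 : ℤ), (⟨5,0,2,0⟩ : Mon)),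 ((8 : ℤ), (⟨5,1,0,1⟩ : Mon))]⟩,
  ⟨-213053446822035456, 7, 3, 1, 0, 0, [((-18 : ℤ), (⟨0,0,1,2⟩ : Mon)), ((2 : ℤ), (⟨0,1,3,0⟩ : Mon)), ((2 : ℤ), (⟨0,4,1,0⟩ : Mon)), ((27 : ℤ), (⟨1,0,2,1⟩ : Mon)), ((12 : ℤ), (⟨1,1,0,2⟩ : Mon)), ((-2 : ℤ), (⟨1,3,0,1⟩ : Mon)), ((-9 : ℤ), (⟨2,0,3,0⟩ : Mon)), ((-21 : ℤ), (⟨2,1,1,1⟩ : Mon)), ((-4 : ℤ), (⟨2,3,1,0⟩ : Mon)), ((-3 : ℤ), (⟨3,0,0,2⟩ : Mon)), ((8 : ℤ), (⟨3,1,2,0⟩ : Mon)), ((4 : ℤ), (⟨3,2,0,1⟩ : Mon)), ((5 : ℤ), (⟨4,0,1,1⟩ : Mon)), ((1 : ℤ), (⟨4,2,1,0⟩ : Mon)), ((-2 : ℤ), (⟨5,0,2,0⟩ : Mon)), ((-1 : ℤ), (⟨5,1,0,1⟩ : Mon))]⟩,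
  ⟨-6152183145824256, 7, 3, 0, 0, 1, [((-22 : ℤ), (⟨1,0,2,1⟩ : Mon)), ((20 : ℤ), (⟨1,1,0,2⟩ : Mon)), ((12 : ℤ), (⟨1,2,2,0⟩ : Mon)), ((-20 : ℤ), (⟨1,3,0,1⟩ : Mon)), ((4 : ℤ), (⟨1,5,0,0⟩ : Mon)), ((22 : ℤ), (⟨2,0,3,0⟩ : Mon)), ((6 : ℤ), (⟨2,1,1,1⟩ : Mon)), ((-4 : ℤ), (⟨2,3,1,0⟩ : Mon)), ((-30 : ℤ), (⟨3,0,0,2⟩ : Mon)), ((-48 : ℤ), (⟨3,1,2,0⟩ : Mon)), ((36 : ℤ), (⟨3,2,0,1⟩ : Mon)), ((-8 : ℤ), (⟨3,4,0,0⟩ : Mon)), ((24 : ℤ), (⟨4,0,1,1⟩ : Mon)), ((24 : ℤ), (⟨4,2,1,0⟩ : Mon)), ((6 : ℤ), (⟨5,0,2,0⟩ : Mon)), ((-30 : ℤ), (⟨5,1,0,1⟩ : Mon)), ((2 : ℤ), (⟨5,3,0,0⟩ : Mon)), ((-6 : ℤ), (⟨6,1,1,0⟩ : Mon)), ((6 : ℤ), (⟨7,0,0,1⟩ : Mon))]⟩,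
  ⟨-234938412111495168, 7, 2, 2, 0, 0, [((-6 : ℤ), (⟨0,0,1,2⟩ : Mon)), ((-10 : ℤ), (⟨0,1,3,0⟩ : Mon)), ((20 : ℤ), (⟨0,2,1,1⟩ : Mon)), ((-10 : ℤ), (⟨1,0,2,1⟩ : Mon)), ((26 : ℤ), (⟨1,1,0,2⟩ : Mon)), ((10 : ℤ), (⟨1,2,2,0⟩ : Mon)), ((-20 : ℤ), (⟨1,3,0,1⟩ : Mon)), ((10 : ℤ), (⟨2,0,3,0⟩ : Mon)), ((-20 : ℤ), (⟨2,1,1,1⟩ : Mon)), ((-2 : ℤ), (⟨3,0,0,2⟩ : Mon)), ((-10 : ℤ), (⟨3,1,2,0⟩ : Mon)), ((20 : ℤ), (⟨3,2,0,1⟩ : Mon)), ((2 : ℤ), (⟨5,0,2,0⟩ : Mon)), ((-4 : ℤ), (⟨5,1,0,1⟩ : Mon))]⟩,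
  ⟨-600665414631948288, 7, 2, 1, 1, 0, [((14 : ℤ), (⟨0,0,1,2⟩ : Mon)), ((-14 : ℤ), (⟨0,2,1,1⟩ : Mon)), ((-8 : ℤ), (⟨1,0,2,1⟩ : Mon)), ((-16 : ℤ), (⟨1,1,0,2⟩ : Mon)), ((10 : ℤ), (⟨1,3,0,1⟩ : Mon)), ((18 : ℤ), (⟨2,1,1,1⟩ : Mon)), ((2 : ℤ), (⟨3,0,0,2⟩ : Mon)), ((-10 : ℤ), (⟨3,2,0,1⟩ : Mon)), ((-2 : ℤ), (⟨4,0,1,1⟩ : Mon)), ((2 : ℤ), (⟨5,1,0,1⟩ : Mon))]⟩,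
  ⟨-36744485236899840, 7, 2, 1, 0, 1, [((1 : ℤ), (⟨1,0,2,1⟩ : Mon)), ((-12 : ℤ), (⟨1,1,0,2⟩ : Mon)), ((-7 : ℤ), (⟨1,2,2,0⟩ : Mon)), ((4 : ℤ), (⟨1,3,0,1⟩ : Mon)), ((-4 : ℤ), (⟨2,0,3,0⟩ : Mon)), ((21 : ℤ), (⟨2,1,1,1⟩ : Mon)), ((5 : ℤ), (⟨2,3,1,0⟩ : Mon)), ((17 : ℤ), (⟨3,0,0,2⟩ : Mon)), ((9 : ℤ), (⟨3,1,2,0⟩ : Mon)), ((-23 : ℤ), (⟨3,2,0,1⟩ : Mon)), ((-16 : ℤ), (⟨4,0,1,1⟩ : Mon)), ((-5 : ℤ), (⟨4,2,1,0⟩ : Mon)), ((-1 : ℤ), (⟨5,0,2,0⟩ : Mon)), ((17 : ℤ), (⟨5,1,0,1⟩ : Mon)), ((1 : ℤ), (⟨6,1,1,0⟩ : Mon)), ((-3 : ℤ), (⟨7,0,0,1⟩ : Mon))]⟩,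
  ⟨2040023476076544, 7, 2, 0, 0, 2, [((-6 : ℤ), (⟨2,0,3,0⟩ : Mon)), ((-8 : ℤ), (⟨2,1,1,1⟩ : Mon)), ((-10 : ℤ), (⟨2,3,1,0⟩ : Mon)), ((-18 : ℤ), (⟨3,0,0,2⟩ : Mon)), ((26 : ℤ), (⟨3,1,2,0⟩ : Mon)), ((-2 : ℤ), (⟨3,2,0,1⟩ : Mon)), ((10 : ℤ), (⟨3,4,0,0⟩ : Mon)), ((40 : ℤ), (⟨4,0,1,1⟩ : Mon)), ((-10 : ℤ), (⟨4,2,1,0⟩ : Mon)), ((-22 : ℤ), (⟨5,0,2,0⟩ : Mon)), ((-16 : ℤ), (⟨5,1,0,1⟩ : Mon)), ((-10 : ℤ), (⟨5,3,0,0⟩ : Mon)), ((20 : ℤ), (⟨6,1,1,0⟩ : Mon)), ((4 : ℤ), (⟨7,0,0,1⟩ : Mon)), ((2 : ℤ), (⟨7,2,0,0⟩ : Mon)), ((-4 : ℤ), (⟨8,0,1,0⟩ : Mon))]⟩,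
  ⟨-13226239347130368, 7, 1, 1, 1, 1, [((18 : ℤ), (⟨1,0,2,1⟩ : Mon)), ((36 : ℤ), (⟨1,1,0,2⟩ : Mon)), ((-12 : ℤ), (⟨1,3,0,1⟩ : Mon)), ((-72 : ℤ), (⟨2,1,1,1⟩ : Mon)), ((-36 : ℤ), (⟨3,0,0,2⟩ : Mon)), ((54 : ℤ), (⟨3,2,0,1⟩ : Mon)), ((36 : ℤ), (⟨4,0,1,1⟩ : Mon)), ((-36 : ℤ), (⟨5,1,0,1⟩ : Mon)), ((6 : ℤ), (⟨7,0,0,1⟩ : Mon))]⟩,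
  ⟨9267011829891072, 7, 1, 1, 0, 2, [((6 : ℤ), (⟨2,0,3,0⟩ : Mon)), ((22 : ℤ), (⟨2,1,1,1⟩ : Mon)), ((-4 : ℤ), (⟨2,3,1,0⟩ : Mon)), ((10 : ℤ), (⟨3,0,0,2⟩ : Mon)), ((-24 : ℤ), (⟨3,1,2,0⟩ : Mon)), ((-10 : ℤ), (⟨3,2,0,1⟩ : Mon)), ((-22 : ℤ), (⟨4,0,1,1⟩ : Mon)), ((18 : ℤ), (⟨4,2,1,0⟩ : Mon)), ((12 : ℤ), (⟨5,0,2,0⟩ : Mon)), ((10 : ℤ), (⟨5,1,0,1⟩ : Mon)), ((-12 : ℤ), (⟨6,1,1,0⟩ : Mon)), ((-2 : ℤ), (⟨7,0,0,1⟩ : Mon)), ((2 : ℤ), (⟨8,0,1,0⟩ : Mon))]⟩,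
  ⟨-137281016954880, 7, 1, 0, 0, 3, [((-8 : ℤ), (⟨3,0,0,2⟩ : Mon)), ((16 : ℤ), (⟨3,1,2,0⟩ : Mon)), ((16 : ℤ), (⟨3,2,0,1⟩ : Mon)), ((-4 : ℤ), (⟨3,4,0,0⟩ : Mon)), ((18 : ℤ), (⟨4,0,1,1⟩ : Mon)), ((-34 : ℤ), (⟨4,2,1,0⟩ : Mon)), ((-10 : ℤ), (⟨5,0,2,0⟩ : Mon)), ((-20 : ℤ), (⟨5,1,0,1⟩ : Mon)), ((18 : ℤ), (⟨5,3,0,0⟩ : Mon)), ((22 : ℤ), (⟨6,1,1,0⟩ : Mon)), ((2 : ℤ), (⟨7,0,0,1⟩ : Mon)), ((-12 : ℤ), (⟨7,2,0,0⟩ : Mon)), ((-2 : ℤ), (⟨8,0,1,0⟩ : Mon)), ((2 : ℤ), (⟨9,1,0,0⟩ : Mon))]⟩,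
  ⟨428000772096, 7, 0, 0, 0, 4, [((-42 : ℤ), (⟨4,0,1,1⟩ : Mon)), ((42 : ℤ), (⟨4,2,1,0⟩ : Mon)), ((42 : ℤ), (⟨5,0,2,0⟩ : Mon)), ((84 : ℤ), (⟨5,1,0,1⟩ : Mon)), ((-42 : ℤ), (⟨5,3,0,0⟩ : Mon)), ((-126 : ℤ), (⟨6,1,1,0⟩ : Mon)), ((-42 : ℤ), (⟨7,0,0,1⟩ : Mon)), ((84 : ℤ), (⟨7,2,0,0⟩ : Mon)), ((42 : ℤ), (⟨8,0,1,0⟩ : Mon)), ((-42 : ℤ), (⟨9,1,0,0⟩ : Mon)), ((6 : ℤ), (⟨11,0,0,0⟩ : Mon))]⟩,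
  ⟨5214748048097280, 6, 5, 0, 0, 0, [((-22 : ℤ), (⟨0,0,1,2⟩ : Mon)), ((-8 : ℤ), (⟨0,1,3,0⟩ : Mon)), ((6 : ℤ), (⟨0,2,1,1⟩ : Mon)), ((-2 : ℤ), (⟨0,4,1,0⟩ : Mon)), ((36 : ℤ), (⟨1,0,2,1⟩ : Mon)), ((6 : ℤ), (⟨1,1,0,2⟩ : Mon)), ((18 : ℤ), (⟨1,2,2,0⟩ : Mon)), ((-8 : ℤ), (⟨1,3,0,1⟩ : Mon)), ((2 : ℤ), (⟨1,5,0,0⟩ : Mon)), ((-14 : ℤ), (⟨2,0,3,0⟩ : Mon)), ((-24 : ℤ), (⟨2,1,1,1⟩ : Mon)), ((-10 : ℤ), (⟨2,3,1,0⟩ : Mon)), ((16 : ℤ), (⟨3,0,0,2⟩ : Mon)), ((10 : ℤ), (⟨3,1,2,0⟩ : Mon)), ((10 : ℤ), (⟨3,2,0,1⟩ : Mon)), ((-10 : ℤ), (⟨4,0,1,1⟩ : Mon))]⟩,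
  ⟨-768620903465484288, 6, 4, 1, 0, 0, [((-6 : ℤ), (⟨0,0,1,2⟩ : Mon)), ((-7 : ℤ), (⟨0,1,3,0⟩ : Mon)), ((6 : ℤ), (⟨0,2,1,1⟩ : Mon)), ((-2 : ℤ), (⟨0,4,1,0⟩ : Mon)), ((3 : ℤ), (⟨1,0,2,1⟩ : Mon)), ((6 : ℤ), (⟨1,1,0,2⟩ : Mon)), ((6 : ℤ), (⟨1,2,2,0⟩ : Mon)), ((2 : ℤ), (⟨1,3,0,1⟩ : Mon)), ((3 : ℤ), (⟨2,0,3,0⟩ : Mon)), ((-12 : ℤ), (⟨2,1,1,1⟩ : Mon)), ((1 : ℤ), (⟨2,3,1,0⟩ : Mon)), ((-5 : ℤ), (⟨3,0,0,2⟩ : Mon)), ((-3 : ℤ), (⟨3,1,2,0⟩ : Mon)), ((-1 : ℤ), (⟨3,2,0,1⟩ : Mon)), ((5 : ℤ), (⟨4,0,1,1⟩ : Mon))]⟩,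
  ⟨-13215419842166784, 6, 4, 0, 0, 1, [((-4 : ℤ), (⟨1,0,2,1⟩ : Mon)), ((-28 : ℤ), (⟨1,1,0,2⟩ : Mon)), ((-18 : ℤ), (⟨1,2,2,0⟩ : Mon)), ((20 : ℤ), (⟨1,3,0,1⟩ : Mon)), ((-4 : ℤ), (⟨1,5,0,0⟩ : Mon)), ((4 : ℤ), (⟨2,0,3,0⟩ : Mon)), ((24 : ℤ), (⟨2,1,1,1⟩ : Mon)), ((16 : ℤ), (⟨2,3,1,0⟩ : Mon)), ((18 : ℤ), (⟨3,0,0,2⟩ : Mon)), ((-24 : ℤ), (⟨3,2,0,1⟩ : Mon)), ((2 : ℤ), (⟨3,4,0,0⟩ : Mon)), ((-16 : ℤ), (⟨4,0,1,1⟩ : Mon)), ((-8 : ℤ), (⟨4,2,1,0⟩ : Mon)), ((4 : ℤ), (⟨5,0,2,0⟩ : Mon)), ((8 : ℤ), (⟨5,1,0,1⟩ : Mon))]⟩,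
  ⟨-2768533978683015168, 6, 3, 2, 0, 0, [((10 : ℤ), (⟨0,0,1,2⟩ : Mon)), ((5 : ℤ), (⟨0,1,3,0⟩ : Mon)), ((-12 : ℤ), (⟨0,2,1,1⟩ : Mon)), ((-3 : ℤ), (⟨1,0,2,1⟩ : Mon)), ((-6 : ℤ), (⟨1,1,0,2⟩ : Mon)), ((-3 : ℤ), (⟨1,2,2,0⟩ : Mon)), ((6 : ℤ), (⟨1,3,0,1⟩ : Mon)), ((-1 : ℤ), (⟨2,0,3,0⟩ : Mon)), ((6 : ℤ), (⟨2,1,1,1⟩ : Mon)), ((1 : ℤ), (⟨3,0,0,2⟩ : Mon)), ((1 : ℤ), (⟨3,1,2,0⟩ : Mon)), ((-2 : ℤ), (⟨3,2,0,1⟩ : Mon)), ((-1 : ℤ), (⟨4,0,1,1⟩ : Mon))]⟩,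
  ⟨-3304081484289146880, 6, 3, 1, 1, 0, [((14 : ℤ), (⟨0,0,1,2⟩ : Mon)), ((6 : ℤ), (⟨0,2,1,1⟩ : Mon)), ((-14 : ℤ), (⟨1,0,2,1⟩ : Mon)), ((-8 : ℤ), (⟨1,1,0,2⟩ : Mon)), ((-6 : ℤ), (⟨1,3,0,1⟩ : Mon)), ((12 : ℤ), (⟨2,1,1,1⟩ : Mon)), ((4 : ℤ), (⟨3,0,0,2⟩ : Mon)), ((2 : ℤ), (⟨3,2,0,1⟩ : Mon)), ((-4 : ℤ), (⟨4,0,1,1⟩ : Mon))]⟩,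
  ⟨119482421493104640, 6, 3, 1, 0, 1, [((13 : ℤ), (⟨1,0,2,1⟩ : Mon)), ((4 : ℤ), (⟨1,1,0,2⟩ : Mon)), ((3 : ℤ), (⟨1,2,2,0⟩ : Mon)), ((-7 : ℤ), (⟨2,0,3,0⟩ : Mon)), ((-15 : ℤ), (⟨2,1,1,1⟩ : Mon)), ((-3 : ℤ), (⟨2,3,1,0⟩ : Mon)), ((-3 : ℤ), (⟨3,0,0,2⟩ : Mon)), ((6 : ℤ), (⟨3,1,2,0⟩ : Mon)), ((3 : ℤ), (⟨3,2,0,1⟩ : Mon)), ((5 : ℤ), (⟨4,0,1,1⟩ : Mon)), ((1 : ℤ), (⟨4,2,1,0⟩ : Mon)), ((-2 : ℤ), (⟨5,0,2,0⟩ : Mon)), ((-1 : ℤ), (⟨5,1,0,1⟩ : Mon))]⟩,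
  ⟨8107191712088064, 6, 3, 0, 0, 2, [((12 : ℤ), (⟨2,0,3,0⟩ : Mon)), ((6 : ℤ), (⟨2,3,1,0⟩ : Mon)), ((-18 : ℤ), (⟨3,0,0,2⟩ : Mon)), ((-36 : ℤ), (⟨3,1,2,0⟩ : Mon)), ((18 : ℤ), (⟨3,2,0,1⟩ : Mon)), ((-6 : ℤ), (⟨3,4,0,0⟩ : Mon)), ((18 : ℤ), (⟨4,0,1,1⟩ : Mon)), ((18 : ℤ), (⟨4,2,1,0⟩ : Mon)), ((6 : ℤ), (⟨5,0,2,0⟩ : Mon)), ((-24 : ℤ), (⟨5,1,0,1⟩ : Mon)), ((2 : ℤ), (⟨5,3,0,0⟩ : Mon)), ((-6 : ℤ), (⟨6,1,1,0⟩ : Mon)), ((6 : ℤ), (⟨7,0,0,1⟩ : Mon))]⟩,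
  ⟨-6058996459401904128, 6, 2, 2, 1, 0, [((-14 : ℤ), (⟨0,0,1,2⟩ : Mon)), ((4 : ℤ), (⟨0,2,1,1⟩ : Mon)), ((8 : ℤ), (⟨1,0,2,1⟩ : Mon)), ((6 : ℤ), (⟨1,1,0,2⟩ : Mon)), ((-8 : ℤ), (⟨2,1,1,1⟩ : Mon)), ((-2 : ℤ), (⟨3,0,0,2⟩ : Mon)), ((2 : ℤ), (⟨4,0,1,1⟩ : Mon))]⟩,
  ⟨168445074613469184, 6, 2, 2, 0, 1, [((-8 : ℤ), (⟨1,0,2,1⟩ : Mon)), ((20 : ℤ), (⟨1,1,0,2⟩ : Mon)), ((4 : ℤ), (⟨1,2,2,0⟩ : Mon)), ((-8 : ℤ), (⟨1,3,0,1⟩ : Mon)), ((8 : ℤ), (⟨2,0,3,0⟩ : Mon)), ((-16 : ℤ), (⟨2,1,1,1⟩ : Mon)), ((-2 : ℤ), (⟨3,0,0,2⟩ : Mon)), ((-8 : ℤ), (⟨3,1,2,0⟩ : Mon)), ((16 : ℤ), (⟨3,2,0,1⟩ : Mon)), ((2 : ℤ), (⟨5,0,2,0⟩ : Mon)), ((-4 : ℤ), (⟨5,1,0,1⟩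 : Mon))]⟩,
  ⟨451730799813722112, 6, 2, 1, 1, 1, [((-6 : ℤ), (⟨1,0,2,1⟩ : Mon)), ((-12 : ℤ), (⟨1,1,0,2⟩ : Mon)), ((4 : ℤ), (⟨1,3,0,1⟩ : Mon)), ((14 : ℤ), (⟨2,1,1,1⟩ : Mon)), ((2 : ℤ), (⟨3,0,0,2⟩ : Mon)), ((-8 : ℤ), (⟨3,2,0,1⟩ : Mon)), ((-2 : ℤ), (⟨4,0,1,1⟩ : Mon)), ((2 : ℤ), (⟨5,1,0,1⟩ : Mon))]⟩,
  ⟨89747399802617856, 6, 2, 1, 0, 2, [((-3 : ℤ), (⟨2,0,3,0⟩ : Mon)), ((4 : ℤ), (⟨2,1,1,1⟩ : Mon)), ((2 : ℤ), (⟨2,3,1,0⟩ : Mon)), ((14 : ℤ), (⟨3,0,0,2⟩ : Mon)), ((7 : ℤ), (⟨3,1,2,0⟩ : Mon)), ((-12 : ℤ), (⟨3,2,0,1⟩ : Mon)), ((-13 : ℤ), (⟨4,0,1,1⟩ : Mon)), ((-4 : ℤ), (⟨4,2,1,0⟩ : Mon)), ((-1 : ℤ), (⟨5,0,2,0⟩ : Mon)), ((14 : ℤ), (⟨5,1,0,1⟩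 : Mon)), ((1 : ℤ), (⟨6,1,1,0⟩ : Mon)), ((-3 : ℤ), (⟨7,0,0,1⟩ : Mon))]⟩,
  ⟨-1696257396965376, 6, 2, 0, 0, 3, [((-8 : ℤ), (⟨3,0,0,2⟩ : Mon)), ((4 : ℤ), (⟨3,1,2,0⟩ : Mon)), ((-8 : ℤ), (⟨3,2,0,1⟩ : Mon)), ((4 : ℤ), (⟨3,4,0,0⟩ : Mon)), ((32 : ℤ), (⟨4,0,1,1⟩ : Mon)), ((-18 : ℤ), (⟨5,0,2,0⟩ : Mon)), ((-12 : ℤ), (⟨5,1,0,1⟩ : Mon)), ((-8 : ℤ), (⟨5,3,0,0⟩ : Mon)), ((16 : ℤ), (⟨6,1,1,0⟩ : Mon)), ((4 : ℤ), (⟨7,0,0,1⟩ : Mon)), ((2 : ℤ), (⟨7,2,0,0⟩ : Mon)), ((-4 : ℤ), (⟨8,0,1,0⟩ : Mon))]⟩,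
  ⟨38456935694991360, 6, 1, 1, 1, 2, [((-30 : ℤ), (⟨2,1,1,1⟩ : Mon)), ((-30 : ℤ), (⟨3,0,0,2⟩ : Mon)), ((30 : ℤ), (⟨3,2,0,1⟩ : Mon)), ((30 : ℤ), (⟨4,0,1,1⟩ : Mon)), ((-30 : ℤ), (⟨5,1,0,1⟩ : Mon)), ((6 : ℤ), (⟨7,0,0,1⟩ : Mon))]⟩,
  ⟨-7998937906544640, 6, 1, 1, 0, 3, [((8 : ℤ), (⟨3,0,0,2⟩ : Mon)), ((-10 : ℤ), (⟨3,1,2,0⟩ : Mon)), ((-4 : ℤ), (⟨3,2,0,1⟩ : Mon)), ((-18 : ℤ), (⟨4,0,1,1⟩ : Mon)), ((10 : ℤ), (⟨4,2,1,0⟩ : Mon)), ((10 : ℤ), (⟨5,0,2,0⟩ : Mon)), ((8 : ℤ), (⟨5,1,0,1⟩ : Mon)), ((-10 : ℤ), (⟨6,1,1,0⟩ : Mon)), ((-2 : ℤ), (⟨7,0,0,1⟩ : Mon)), ((2 : ℤ), (⟨8,0,1,0⟩ : Mon))]⟩,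
  ⟨91427610525696, 6, 1, 0, 0, 4, [((14 : ℤ), (⟨4,0,1,1⟩ : Mon)), ((-14 : ℤ), (⟨4,2,1,0⟩ : Mon)), ((-8 : ℤ), (⟨5,0,2,0⟩ : Mon)), ((-16 : ℤ), (⟨5,1,0,1⟩ : Mon)), ((10 : ℤ), (⟨5,3,0,0⟩ : Mon)), ((18 : ℤ), (⟨6,1,1,0⟩ : Mon)), ((2 : ℤ), (⟨7,0,0,1⟩ : Mon)), ((-10 : ℤ), (⟨7,2,0,0⟩ : Mon)), ((-2 : ℤ), (⟨8,0,1,0⟩ : Mon)), ((2 : ℤ), (⟨9,1,0,0⟩ : Mon))]⟩,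
  ⟨-225762508800, 6, 0, 0, 0, 5, [((18 : ℤ), (⟨5,0,2,0⟩ : Mon)), ((36 : ℤ), (⟨5,1,0,1⟩ : Mon)), ((-12 : ℤ), (⟨5,3,0,0⟩ : Mon)), ((-72 : ℤ), (⟨6,1,1,0⟩ : Mon)), ((-36 : ℤ), (⟨7,0,0,1⟩ : Mon)), ((54 : ℤ), (⟨7,2,0,0⟩ : Mon)), ((36 : ℤ), (⟨8,0,1,0⟩ : Mon)), ((-36 : ℤ), (⟨9,1,0,0⟩ : Mon)), ((6 : ℤ), (⟨11,0,0,0⟩ : Mon))]⟩,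
  ⟨-563050283488247808, 5, 5, 1, 0, 0, [((22 : ℤ), (⟨0,0,1,2⟩ : Mon)), ((8 : ℤ), (⟨0,1,3,0⟩ : Mon)), ((-6 : ℤ), (⟨0,2,1,1⟩ : Mon)), ((2 : ℤ), (⟨0,4,1,0⟩ : Mon)), ((-26 : ℤ), (⟨1,0,2,1⟩ : Mon)), ((4 : ℤ), (⟨1,1,0,2⟩ : Mon)), ((-8 : ℤ), (⟨1,2,2,0⟩ : Mon)), ((-2 : ℤ), (⟨1,3,0,1⟩ : Mon)), ((4 : ℤ), (⟨2,0,3,0⟩ : Mon)), ((14 : ℤ), (⟨2,1,1,1⟩ : Mon)), ((-6 : ℤ), (⟨3,0,0,2⟩ : Mon))]⟩,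
  ⟨-8341831456653312, 5, 5, 0, 0, 1, [((20 : ℤ), (⟨1,0,2,1⟩ : Mon)), ((20 : ℤ), (⟨1,1,0,2⟩ : Mon)), ((20 : ℤ), (⟨1,2,2,0⟩ : Mon)), ((-20 : ℤ), (⟨1,3,0,1⟩ : Mon)), ((4 : ℤ), (⟨1,5,0,0⟩ : Mon)), ((-20 : ℤ), (⟨2,0,3,0⟩ : Mon)), ((-20 : ℤ), (⟨2,1,1,1⟩ : Mon)), ((-20 : ℤ), (⟨2,3,1,0⟩ : Mon)), ((20 : ℤ), (⟨3,0,0,2⟩ : Mon)), ((20 : ℤ), (⟨3,1,2,0⟩ : Mon)), ((20 : ℤ), (⟨3,2,0,1⟩ : Mon)), ((-20 : ℤ), (⟨4,0,1,1⟩ : Mon))]⟩,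
  ⟨-6000352038028836864, 5, 4, 2, 0, 0, [((-6 : ℤ), (⟨0,0,1,2⟩ : Mon)), ((-1 : ℤ), (⟨0,1,3,0⟩ : Mon)), ((2 : ℤ), (⟨0,2,1,1⟩ : Mon)), ((5 : ℤ), (⟨1,0,2,1⟩ : Mon)), ((-2 : ℤ), (⟨1,1,0,2⟩ : Mon)), ((1 : ℤ), (⟨1,2,2,0⟩ : Mon)), ((-2 : ℤ), (⟨1,3,0,1⟩ : Mon)), ((-2 : ℤ), (⟨2,0,3,0⟩ : Mon)), ((4 : ℤ), (⟨2,1,1,1⟩ : Mon)), ((-3 : ℤ), (⟨3,0,0,2⟩ : Mon))]⟩,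
  ⟨-7009039364772593664, 5, 4, 1, 1, 0, [((-10 : ℤ), (⟨0,0,1,2⟩ : Mon)), ((-2 : ℤ), (⟨0,2,1,1⟩ : Mon)), ((10 : ℤ), (⟨1,0,2,1⟩ : Mon)), ((-4 : ℤ), (⟨1,1,0,2⟩ : Mon)), ((2 : ℤ), (⟨1,3,0,1⟩ : Mon)), ((-6 : ℤ), (⟨2,1,1,1⟩ : Mon)), ((6 : ℤ), (⟨3,0,0,2⟩ : Mon))]⟩,
  ⟨464758067989315584, 5, 4, 1, 0, 1, [((-8 : ℤ), (⟨1,0,2,1⟩ : Mon)), ((4 : ℤ), (⟨1,1,0,2⟩ : Mon)), ((-1 : ℤ), (⟨1,2,2,0⟩ : Mon)), ((5 : ℤ), (⟨2,0,3,0⟩ : Mon)), ((1 : ℤ), (⟨2,3,1,0⟩ : Mon)), ((-8 : ℤ), (⟨3,0,0,2⟩ : Mon)), ((-3 : ℤ), (⟨3,1,2,0⟩ : Mon)), ((-1 : ℤ), (⟨3,2,0,1⟩ : Mon)), ((5 : ℤ), (⟨4,0,1,1⟩ : Mon))]⟩,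
  ⟨14909363180273664, 5, 4, 0, 0, 2, [((-6 : ℤ), (⟨2,0,3,0⟩ : Mon)), ((4 : ℤ), (⟨2,1,1,1⟩ : Mon)), ((-2 : ℤ), (⟨2,3,1,0⟩ : Mon)), ((22 : ℤ), (⟨3,0,0,2⟩ : Mon)), ((14 : ℤ), (⟨3,1,2,0⟩ : Mon)), ((-6 : ℤ), (⟨3,2,0,1⟩ : Mon)), ((2 : ℤ), (⟨3,4,0,0⟩ : Mon)), ((-26 : ℤ), (⟨4,0,1,1⟩ : Mon)), ((-8 : ℤ), (⟨4,2,1,0⟩ : Mon)), ((4 : ℤ), (⟨5,0,2,0⟩ : Mon)), ((8 : ℤ), (⟨5,1,0,1⟩ : Mon))]⟩,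
  ⟨-4924541727210995712, 5, 3, 3, 0, 0, [((-2 : ℤ), (⟨0,0,1,2⟩ : Mon)), ((-4 : ℤ), (⟨0,1,3,0⟩ : Mon)), ((12 : ℤ), (⟨0,2,1,1⟩ : Mon)), ((-12 : ℤ), (⟨1,1,0,2⟩ : Mon)), ((2 : ℤ), (⟨2,0,3,0⟩ : Mon)), ((-6 : ℤ), (⟨2,1,1,1⟩ : Mon)), ((6 : ℤ), (⟨3,0,0,2⟩ : Mon))]⟩,
  ⟨-40003860777784049664, 5, 3, 2, 1, 0, [((-2 : ℤ), (⟨0,0,1,2⟩ : Mon)), ((-2 : ℤ), (⟨0,2,1,1⟩ : Mon)), ((-1 : ℤ), (⟨1,0,2,1⟩ : Mon)), ((8 : ℤ), (⟨1,1,0,2⟩ : Mon)), ((1 : ℤ), (⟨2,1,1,1⟩ : Mon)), ((-3 : ℤ), (⟨3,0,0,2⟩ : Mon))]⟩,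
  ⟨2064521086195728384, 5, 3, 2, 0, 1, [((1 : ℤ), (⟨1,0,2,1⟩ : Mon)), ((-12 : ℤ), (⟨1,1,0,2⟩ : Mon)), ((-2 : ℤ), (⟨1,2,2,0⟩ : Mon)), ((4 : ℤ), (⟨1,3,0,1⟩ : Mon)), ((-1 : ℤ), (⟨2,0,3,0⟩ : Mon)), ((5 : ℤ), (⟨2,1,1,1⟩ : Mon)), ((1 : ℤ), (⟨3,0,0,2⟩ : Mon)), ((1 : ℤ), (⟨3,1,2,0⟩ : Mon)), ((-2 : ℤ), (⟨3,2,0,1⟩ : Mon)), ((-1 : ℤ), (⟨4,0,1,1⟩ : Mon))]⟩,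
  ⟨2502778332798517248, 5, 3, 1, 1, 1, [((-6 : ℤ), (⟨1,0,2,1⟩ : Mon)), ((4 : ℤ), (⟨1,1,0,2⟩ : Mon)), ((-4 : ℤ), (⟨1,3,0,1⟩ : Mon)), ((8 : ℤ), (⟨2,1,1,1⟩ : Mon)), ((4 : ℤ), (⟨3,0,0,2⟩ : Mon)), ((2 : ℤ), (⟨3,2,0,1⟩ : Mon)), ((-4 : ℤ), (⟨4,0,1,1⟩ : Mon))]⟩,
  ⟨134700369237245952, 5, 3, 1, 0, 2, [((-3 : ℤ), (⟨2,0,3,0⟩ : Mon)), ((-2 : ℤ), (⟨2,1,1,1⟩ : Mon)), ((-2 : ℤ), (⟨2,3,1,0⟩ : Mon)), ((-6 : ℤ), (⟨3,0,0,2⟩ : Mon)), ((4 : ℤ), (⟨3,1,2,0⟩ : Mon)), ((2 : ℤ), (⟨3,2,0,1⟩ : Mon)), ((5 : ℤ), (⟨4,0,1,1⟩ : Mon)), ((1 : ℤ), (⟨4,2,1,0⟩ : Mon)), ((-2 : ℤ), (⟨5,0,2,0⟩ : Mon)), ((-1 : ℤ), (⟨5,1,0,1⟩ : Mon))]⟩,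
  ⟨-5487154239111168, 5, 3, 0, 0, 3, [((-8 : ℤ), (⟨3,0,0,2⟩ : Mon)), ((-14 : ℤ), (⟨3,1,2,0⟩ : Mon)), ((16 : ℤ), (⟨3,2,0,1⟩ : Mon)), ((-4 : ℤ), (⟨3,4,0,0⟩ : Mon)), ((2 : ℤ), (⟨4,0,1,1⟩ : Mon)), ((12 : ℤ), (⟨4,2,1,0⟩ : Mon)), ((6 : ℤ), (⟨5,0,2,0⟩ : Mon)), ((-18 : ℤ), (⟨5,1,0,1⟩ : Mon)), ((2 : ℤ), (⟨5,3,0,0⟩ : Mon)), ((-6 : ℤ), (⟨6,1,1,0⟩ : Mon)), ((6 : ℤ), (⟨7,0,0,1⟩ : Mon))]⟩,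
  ⟨-11636790347459198976, 5, 2, 2, 2, 0, [((18 : ℤ), (⟨0,0,1,2⟩ : Mon)), ((-18 : ℤ), (⟨1,1,0,2⟩ : Mon)), ((6 : ℤ), (⟨3,0,0,2⟩ : Mon))]⟩,
  ⟨4815871261991239680, 5, 2, 2, 1, 1, [((6 : ℤ), (⟨1,0,2,1⟩ : Mon)), ((4 : ℤ), (⟨1,1,0,2⟩ : Mon)), ((-6 : ℤ), (⟨2,1,1,1⟩ : Mon)), ((-2 : ℤ), (⟨3,0,0,2⟩ : Mon)), ((2 : ℤ), (⟨4,0,1,1⟩ : Mon))]⟩,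
  ⟨93012349490823168, 5, 2, 2, 0, 2, [((6 : ℤ), (⟨2,0,3,0⟩ : Mon)), ((-12 : ℤ), (⟨2,1,1,1⟩ : Mon)), ((-2 : ℤ), (⟨3,0,0,2⟩ : Mon)), ((-6 : ℤ), (⟨3,1,2,0⟩ : Mon)), ((12 : ℤ), (⟨3,2,0,1⟩ : Mon)), ((2 : ℤ), (⟨5,0,2,0⟩ : Mon)), ((-4 : ℤ), (⟨5,1,0,1⟩ : Mon))]⟩,
  ⟨211111886073102336, 5, 2, 1, 1, 2, [((10 : ℤ), (⟨2,1,1,1⟩ : Mon)), ((2 : ℤ), (⟨3,0,0,2⟩ : Mon)), ((-6 : ℤ), (⟨3,2,0,1⟩ : Mon)), ((-2 : ℤ), (⟨4,0,1,1⟩ : Mon)), ((2 : ℤ), (⟨5,1,0,1⟩ : Mon))]⟩,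
  ⟨-77836895253430272, 5, 2, 1, 0, 3, [((8 : ℤ), (⟨3,0,0,2⟩ : Mon)), ((5 : ℤ), (⟨3,1,2,0⟩ : Mon)), ((-4 : ℤ), (⟨3,2,0,1⟩ : Mon)), ((-10 : ℤ), (⟨4,0,1,1⟩ : Mon)), ((-3 : ℤ), (⟨4,2,1,0⟩ : Mon)), ((-1 : ℤ), (⟨5,0,2,0⟩ : Mon)), ((11 : ℤ), (⟨5,1,0,1⟩ : Mon)), ((1 : ℤ), (⟨6,1,1,0⟩ : Mon)), ((-3 : ℤ), (⟨7,0,0,1⟩ : Mon))]⟩,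
  ⟨842956228952064, 5, 2, 0, 0, 4, [((14 : ℤ), (⟨4,0,1,1⟩ : Mon)), ((6 : ℤ), (⟨4,2,1,0⟩ : Mon)), ((-14 : ℤ), (⟨5,0,2,0⟩ : Mon)), ((-8 : ℤ), (⟨5,1,0,1⟩ : Mon)), ((-6 : ℤ), (⟨5,3,0,0⟩ : Mon)), ((12 : ℤ), (⟨6,1,1,0⟩ : Mon)), ((4 : ℤ), (⟨7,0,0,1⟩ : Mon)), ((2 : ℤ), (⟨7,2,0,0⟩ : Mon)), ((-4 : ℤ), (⟨8,0,1,0⟩ : Mon))]⟩,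
  ⟨-34925310577213440, 5, 1, 1, 1, 3, [((-24 : ℤ), (⟨3,0,0,2⟩ : Mon)), ((12 : ℤ), (⟨3,2,0,1⟩ : Mon)), ((24 : ℤ), (⟨4,0,1,1⟩ : Mon)), ((-24 : ℤ), (⟨5,1,0,1⟩ : Mon)), ((6 : ℤ), (⟨7,0,0,1⟩ : Mon))]⟩,
  ⟨4051672195203072, 5, 1, 1, 0, 4, [((-14 : ℤ), (⟨4,0,1,1⟩ : Mon)), ((4 : ℤ), (⟨4,2,1,0⟩ : Mon)), ((8 : ℤ), (⟨5,0,2,0⟩ : Mon)), ((6 : ℤ), (⟨5,1,0,1⟩ : Mon)), ((-8 : ℤ), (⟨6,1,1,0⟩ : Mon)), ((-2 : ℤ), (⟨7,0,0,1⟩ : Mon)), ((2 : ℤ), (⟨8,0,1,0⟩ : Mon))]⟩,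
  ⟨-38978498985984, 5, 1, 0, 0, 5, [((-6 : ℤ), (⟨5,0,2,0⟩ : Mon)), ((-12 : ℤ), (⟨5,1,0,1⟩ : Mon)), ((4 : ℤ), (⟨5,3,0,0⟩ : Mon)), ((14 : ℤ), (⟨6,1,1,0⟩ : Mon)), ((2 : ℤ), (⟨7,0,0,1⟩ : Mon)), ((-8 : ℤ), (⟨7,2,0,0⟩ : Mon)), ((-2 : ℤ), (⟨8,0,1,0⟩ : Mon)), ((2 : ℤ), (⟨9,1,0,0⟩ : Mon))]⟩,
  ⟨79945961472, 5, 0, 0, 0, 6, [((-30 : ℤ), (⟨6,1,1,0⟩ : Mon)), ((-30 : ℤ), (⟨7,0,0,1⟩ : Mon)), ((30 : ℤ), (⟨7,2,0,0⟩ : Mon)), ((30 : ℤ), (⟨8,0,1,0⟩ : Mon)), ((-30 : ℤ), (⟨9,1,0,0⟩ : Mon)), ((6 : ℤ), (⟨11,0,0,0⟩ : Mon))]⟩,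
  ⟨-7298468244451491840, 4, 4, 3, 0, 0, [((2 : ℤ), (⟨0,0,1,2⟩ : Mon)), ((2 : ℤ), (⟨0,1,3,0⟩ : Mon)), ((-6 : ℤ), (⟨0,2,1,1⟩ : Mon)), ((-2 : ℤ), (⟨1,0,2,1⟩ : Mon)), ((10 : ℤ), (⟨1,1,0,2⟩ : Mon))]⟩,
  ⟨-29086247377365368832, 4, 4, 2, 1, 0, [((10 : ℤ), (⟨0,0,1,2⟩ : Mon)), ((2 : ℤ), (⟨0,2,1,1⟩ : Mon)), ((-4 : ℤ), (⟨1,0,2,1⟩ : Mon)), ((-2 : ℤ), (⟨1,1,0,2⟩ : Mon))]⟩,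
  ⟨1694303728271622144, 4, 4, 2, 0, 1, [((4 : ℤ), (⟨1,0,2,1⟩ : Mon)), ((4 : ℤ), (⟨1,1,0,2⟩ : Mon)), ((2 : ℤ), (⟨1,2,2,0⟩ : Mon)), ((-4 : ℤ), (⟨1,3,0,1⟩ : Mon)), ((-4 : ℤ), (⟨2,0,3,0⟩ : Mon)), ((8 : ℤ), (⟨2,1,1,1⟩ : Mon)), ((-6 : ℤ), (⟨3,0,0,2⟩ : Mon))]⟩,
  ⟨2017864881713184768, 4, 4, 1, 1, 1, [((12 : ℤ), (⟨1,0,2,1⟩ : Mon)), ((-12 : ℤ), (⟨1,1,0,2⟩ : Mon)), ((4 : ℤ), (⟨1,3,0,1⟩ : Mon)), ((-12 : ℤ), (⟨2,1,1,1⟩ : Mon)), ((12 : ℤ), (⟨3,0,0,2⟩ : Mon))]⟩,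
  ⟨63092451487776768, 4, 4, 1, 0, 2, [((6 : ℤ), (⟨2,0,3,0⟩ : Mon)), ((-4 : ℤ), (⟨2,1,1,1⟩ : Mon)), ((2 : ℤ), (⟨2,3,1,0⟩ : Mon)), ((-10 : ℤ), (⟨3,0,0,2⟩ : Mon)), ((-6 : ℤ), (⟨3,1,2,0⟩ : Mon)), ((-2 : ℤ), (⟨3,2,0,1⟩ : Mon)), ((10 : ℤ), (⟨4,0,1,1⟩ : Mon))]⟩,
  ⟨-3922489324732416, 4, 4, 0, 0, 3, [((24 : ℤ), (⟨3,0,0,2⟩ : Mon)), ((16 : ℤ), (⟨3,1,2,0⟩ : Mon)), ((-16 : ℤ), (⟨3,2,0,1⟩ : Mon)), ((4 : ℤ), (⟨3,4,0,0⟩ : Mon)), ((-32 : ℤ), (⟨4,0,1,1⟩ : Mon)), ((-16 : ℤ), (⟨4,2,1,0⟩ : Mon)), ((8 : ℤ), (⟨5,0,2,0⟩ : Mon)), ((16 : ℤ), (⟨5,1,0,1⟩ : Mon))]⟩,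
  ⟨-45230645471392825344, 4, 3, 3, 1, 0, [((-2 : ℤ), (⟨0,0,1,2⟩ : Mon)), ((2 : ℤ), (⟨1,0,2,1⟩ : Mon)), ((-4 : ℤ), (⟨1,1,0,2⟩ : Mon))]⟩,
  ⟨2967049657110233088, 4, 3, 3, 0, 1, [((-2 : ℤ), (⟨1,0,2,1⟩ : Mon)), ((4 : ℤ), (⟨1,1,0,2⟩ : Mon)), ((2 : ℤ), (⟨2,0,3,0⟩ : Mon)), ((-6 : ℤ), (⟨2,1,1,1⟩ : Mon)), ((6 : ℤ), (⟨3,0,0,2⟩ : Mon))]⟩,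
  ⟨-77585297101666910208, 4, 3, 2, 2, 0, [((-6 : ℤ), (⟨0,0,1,2⟩ : Mon)), ((2 : ℤ), (⟨1,1,0,2⟩ : Mon))]⟩,
  ⟨25401491687089373184, 4, 3, 2, 1, 1, [((-3 : ℤ), (⟨1,0,2,1⟩ : Mon)), ((4 : ℤ), (⟨1,1,0,2⟩ : Mon)), ((1 : ℤ), (⟨2,1,1,1⟩ : Mon)), ((-3 : ℤ), (⟨3,0,0,2⟩ : Mon))]⟩,
  ⟨17324687826616320, 4, 3, 2, 0, 2, [((-3 : ℤ), (⟨2,0,3,0⟩ : Mon)), ((8 : ℤ), (⟨2,1,1,1⟩ : Mon)), ((-2 : ℤ), (⟨3,0,0,2⟩ : Mon)), ((1 : ℤ), (⟨3,1,2,0⟩ : Mon)), ((-2 : ℤ), (⟨3,2,0,1⟩ : Mon)), ((-1 : ℤ), (⟨4,0,1,1⟩ : Mon))]⟩,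
  ⟨363974935707648, 4, 3, 1, 1, 2, [((-2 : ℤ), (⟨2,1,1,1⟩ : Mon)), ((10 : ℤ), (⟨3,0,0,2⟩ : Mon)), ((2 : ℤ), (⟨3,2,0,1⟩ : Mon)), ((-4 : ℤ), (⟨4,0,1,1⟩ : Mon))]⟩,
  ⟨-144000512289669120, 4, 3, 1, 0, 3, [((-8 : ℤ), (⟨3,0,0,2⟩ : Mon)), ((-1 : ℤ), (⟨3,1,2,0⟩ : Mon)), ((10 : ℤ), (⟨4,0,1,1⟩ : Mon)), ((1 : ℤ), (⟨4,2,1,0⟩ : Mon)), ((-2 : ℤ), (⟨5,0,2,0⟩ : Mon)), ((-1 : ℤ), (⟨5,1,0,1⟩ : Mon))]⟩,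
  ⟨2071082354442240, 4, 3, 0, 0, 4, [((-10 : ℤ), (⟨4,0,1,1⟩ : Mon)), ((-2 : ℤ), (⟨4,2,1,0⟩ : Mon)), ((10 : ℤ), (⟨5,0,2,0⟩ : Mon)), ((-4 : ℤ), (⟨5,1,0,1⟩ : Mon)), ((2 : ℤ), (⟨5,3,0,0⟩ : Mon)), ((-6 : ℤ), (⟨6,1,1,0⟩ : Mon)), ((6 : ℤ), (⟨7,0,0,1⟩ : Mon))]⟩,
  ⟨7637864605116530688, 4, 2, 2, 2, 1, [((-12 : ℤ), (⟨1,1,0,2⟩ : Mon)), ((6 : ℤ), (⟨3,0,0,2⟩ : Mon))]⟩,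
  ⟨-244578387662733312, 4, 2, 2, 1, 2, [((-4 : ℤ), (⟨2,1,1,1⟩ : Mon)), ((-2 : ℤ), (⟨3,0,0,2⟩ : Mon)), ((2 : ℤ), (⟨4,0,1,1⟩ : Mon))]⟩,
  ⟨-126706207815106560, 4, 2, 2, 0, 3, [((-8 : ℤ), (⟨3,0,0,2⟩ : Mon)), ((-4 : ℤ), (⟨3,1,2,0⟩ : Mon)), ((8 : ℤ), (⟨3,2,0,1⟩ : Mon)), ((2 : ℤ), (⟨5,0,2,0⟩ : Mon)), ((-4 : ℤ), (⟨5,1,0,1⟩ : Mon))]⟩,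
  ⟨-313933822867537920, 4, 2, 1, 1, 3, [((8 : ℤ), (⟨3,0,0,2⟩ : Mon)), ((-4 : ℤ), (⟨3,2,0,1⟩ : Mon)), ((-2 : ℤ), (⟨4,0,1,1⟩ : Mon)), ((2 : ℤ), (⟨5,1,0,1⟩ : Mon))]⟩,
  ⟨33520357244731392, 4, 2, 1, 0, 4, [((-2 : ℤ), (⟨4,0,1,1⟩ : Mon)), ((-2 : ℤ), (⟨4,2,1,0⟩ : Mon)), ((-1 : ℤ), (⟨5,0,2,0⟩ : Mon)), ((8 : ℤ), (⟨5,1,0,1⟩ : Mon)), ((1 : ℤ), (⟨6,1,1,0⟩ : Mon)), ((-3 : ℤ), (⟨7,0,0,1⟩ : Mon))]⟩,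
  ⟨-255965631381504, 4, 2, 0, 0, 5, [((-6 : ℤ), (⟨5,0,2,0⟩ : Mon)), ((4 : ℤ), (⟨5,1,0,1⟩ : Mon)), ((-4 : ℤ), (⟨5,3,0,0⟩ : Mon)), ((8 : ℤ), (⟨6,1,1,0⟩ : Mon)), ((4 : ℤ), (⟨7,0,0,1⟩ : Mon)), ((2 : ℤ), (⟨7,2,0,0⟩ : Mon)), ((-4 : ℤ), (⟨8,0,1,0⟩ : Mon))]⟩,
  ⟨15450202982252544, 4, 1, 1, 1, 4, [((18 : ℤ), (⟨4,0,1,1⟩ : Mon)), ((-18 : ℤ), (⟨5,1,0,1⟩ : Mon)), ((6 : ℤ), (⟨7,0,0,1⟩ : Mon))]⟩,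
  ⟨-1237432355389440, 4, 1, 1, 0, 5, [((6 : ℤ), (⟨5,0,2,0⟩ : Mon)), ((4 : ℤ), (⟨5,1,0,1⟩ : Mon)), ((-6 : ℤ), (⟨6,1,1,0⟩ : Mon)), ((-2 : ℤ), (⟨7,0,0,1⟩ : Mon)), ((2 : ℤ), (⟨8,0,1,0⟩ : Mon))]⟩,
  ⟨10652613046272, 4, 1, 0, 0, 6, [((10 : ℤ), (⟨6,1,1,0⟩ : Mon)), ((2 : ℤ), (⟨7,0,0,1⟩ : Mon)), ((-6 : ℤ), (⟨7,2,0,0⟩ : Mon)), ((-2 : ℤ), (⟨8,0,1,0⟩ : Mon)), ((2 : ℤ), (⟨9,1,0,0⟩ : Mon))]⟩,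
  ⟨-18795884544, 4, 0, 0, 0, 7, [((-24 : ℤ), (⟨7,0,0,1⟩ : Mon)), ((12 : ℤ), (⟨7,2,0,0⟩ : Mon)), ((24 : ℤ), (⟨8,0,1,0⟩ : Mon)), ((-24 : ℤ), (⟨9,1,0,0⟩ : Mon)), ((6 : ℤ), (⟨11,0,0,0⟩ : Mon))]⟩,
  ⟨-39518164757061304320, 3, 3, 3, 2, 0, [((6 : ℤ), (⟨0,0,1,2⟩ : Mon))]⟩,
  ⟨6932156115836731392, 3, 3, 3, 1, 1, [((6 : ℤ), (⟨1,0,2,1⟩ : Mon)), ((-12 : ℤ), (⟨1,1,0,2⟩ : Mon))]⟩,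
  ⟨-43624609798422528, 3, 3, 3, 0, 2, [((6 : ℤ), (⟨2,0,3,0⟩ : Mon)), ((-18 : ℤ), (⟨2,1,1,1⟩ : Mon)), ((18 : ℤ), (⟨3,0,0,2⟩ : Mon))]⟩,
  ⟨18477587424255934464, 3, 3, 2, 2, 1, [((4 : ℤ), (⟨1,1,0,2⟩ : Mon))]⟩,
  ⟨-911282143651430400, 3, 3, 2, 1, 2, [((2 : ℤ), (⟨2,1,1,1⟩ : Mon)), ((-6 : ℤ), (⟨3,0,0,2⟩ : Mon))]⟩,
  ⟨-173367434793713664, 3, 3, 2, 0, 3, [((8 : ℤ), (⟨3,0,0,2⟩ : Mon)), ((2 : ℤ), (⟨3,1,2,0⟩ : Mon)), ((-4 : ℤ), (⟨3,2,0,1⟩ : Mon)), ((-2 : ℤ), (⟨4,0,1,1⟩ : Mon))]⟩,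
  ⟨-211539929264553984, 3, 3, 1, 1, 3, [((8 : ℤ), (⟨3,0,0,2⟩ : Mon)), ((4 : ℤ), (⟨3,2,0,1⟩ : Mon)), ((-8 : ℤ), (⟨4,0,1,1⟩ : Mon))]⟩,
  ⟨25204655922216960, 3, 3, 1, 0, 4, [((10 : ℤ), (⟨4,0,1,1⟩ : Mon)), ((2 : ℤ), (⟨4,2,1,0⟩ : Mon)), ((-4 : ℤ), (⟨5,0,2,0⟩ : Mon)), ((-2 : ℤ), (⟨5,1,0,1⟩ : Mon))]⟩,
  ⟨-217502452678656, 3, 3, 0, 0, 5, [((12 : ℤ), (⟨5,0,2,0⟩ : Mon)), ((-12 : ℤ), (⟨5,1,0,1⟩ : Mon)), ((4 : ℤ), (⟨5,3,0,0⟩ : Mon)), ((-12 : ℤ), (⟨6,1,1,0⟩ : Mon)), ((12 : ℤ), (⟨7,0,0,1⟩ : Mon))]⟩,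
  ⟨-712866952372027392, 3, 2, 2, 2, 2, [((6 : ℤ), (⟨3,0,0,2⟩ : Mon))]⟩,
  ⟨-684452450169520128, 3, 2, 2, 1, 3, [((-8 : ℤ), (⟨3,0,0,2⟩ : Mon)), ((2 : ℤ), (⟨4,0,1,1⟩ : Mon))]⟩,
  ⟨46864805942329344, 3, 2, 2, 0, 4, [((-2 : ℤ), (⟨4,0,1,1⟩ : Mon)), ((2 : ℤ), (⟨5,0,2,0⟩ : Mon)), ((-4 : ℤ), (⟨5,1,0,1⟩ : Mon))]⟩,
  ⟨119977083559084032, 3, 2, 1, 1, 4, [((-6 : ℤ), (⟨4,0,1,1⟩ : Mon)), ((2 : ℤ), (⟨5,1,0,1⟩ : Mon))]⟩,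
  ⟨-7704304039231488, 3, 2, 1, 0, 5, [((-3 : ℤ), (⟨5,0,2,0⟩ : Mon)), ((4 : ℤ), (⟨5,1,0,1⟩ : Mon)), ((1 : ℤ), (⟨6,1,1,0⟩ : Mon)), ((-3 : ℤ), (⟨7,0,0,1⟩ : Mon))]⟩,
  ⟨46222343921664, 3, 2, 0, 0, 6, [((-2 : ℤ), (⟨6,1,1,0⟩ : Mon)), ((10 : ℤ), (⟨7,0,0,1⟩ : Mon)), ((2 : ℤ), (⟨7,2,0,0⟩ : Mon)), ((-4 : ℤ), (⟨8,0,1,0⟩ : Mon))]⟩,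
  ⟨-3647342553858048, 3, 1, 1, 1, 5, [((-12 : ℤ), (⟨5,1,0,1⟩ : Mon)), ((6 : ℤ), (⟨7,0,0,1⟩ : Mon))]⟩,
  ⟨223946807427072, 3, 1, 1, 0, 6, [((-4 : ℤ), (⟨6,1,1,0⟩ : Mon)), ((-2 : ℤ), (⟨7,0,0,1⟩ : Mon)), ((2 : ℤ), (⟨8,0,1,0⟩ : Mon))]⟩,
  ⟨-1806203584512, 3, 1, 0, 0, 7, [((8 : ℤ), (⟨7,0,0,1⟩ : Mon)), ((-4 : ℤ), (⟨7,2,0,0⟩ : Mon)), ((-2 : ℤ), (⟨8,0,1,0⟩ : Mon)), ((2 : ℤ), (⟨9,1,0,0⟩ : Mon))]⟩,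
  ⟨2830761216, 3, 0, 0, 0, 8, [((18 : ℤ), (⟨8,0,1,0⟩ : Mon)), ((-18 : ℤ), (⟨9,1,0,0⟩ : Mon)), ((6 : ℤ), (⟨11,0,0,0⟩ : Mon))]⟩,
  ⟨-90269897638281216, 2, 2, 2, 2, 3, [((24 : ℤ), (⟨3,0,0,2⟩ : Mon))]⟩,
  ⟨69142241897152512, 2, 2, 2, 1, 4, [((6 : ℤ), (⟨4,0,1,1⟩ : Mon))]⟩,
  ⟨-2473981601710080, 2, 2, 2, 0, 5, [((6 : ℤ), (⟨5,0,2,0⟩ : Mon)), ((-12 : ℤ), (⟨5,1,0,1⟩ : Mon))]⟩,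
  ⟨-9933681433116672, 2, 2, 1, 1, 5, [((4 : ℤ), (⟨5,1,0,1⟩ : Mon))]⟩,
  ⟨453132969615360, 2, 2, 1, 0, 6, [((2 : ℤ), (⟨6,1,1,0⟩ : Mon)), ((-6 : ℤ), (⟨7,0,0,1⟩ : Mon))]⟩,
  ⟨-2244777062400, 2, 2, 0, 0, 7, [((8 : ℤ), (⟨7,0,0,1⟩ : Mon)), ((4 : ℤ), (⟨7,2,0,0⟩ : Mon)), ((-8 : ℤ), (⟨8,0,1,0⟩ : Mon))]⟩,
  ⟨447593524346880, 2, 1, 1, 1, 6, [((6 : ℤ), (⟨7,0,0,1⟩ : Mon))]⟩,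
  ⟨-22247615250432, 2, 1, 1, 0, 7, [((-8 : ℤ), (⟨7,0,0,1⟩ : Mon)), ((2 : ℤ), (⟨8,0,1,0⟩ : Mon))]⟩,
  ⟨173931238656, 2, 1, 0, 0, 8, [((-6 : ℤ), (⟨8,0,1,0⟩ : Mon)), ((2 : ℤ), (⟨9,1,0,0⟩ : Mon))]⟩,
  ⟨-254577600, 2, 0, 0, 0, 9, [((-12 : ℤ), (⟨9,1,0,0⟩ : Mon)), ((6 : ℤ), (⟨11,0,0,0⟩ : Mon))]⟩,
  ⟨-6084340752384, 1, 1, 1, 1, 7, [((24 : ℤ), (⟨7,0,0,1⟩ : Mon))]⟩,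
  ⟨327440199168, 1, 1, 1, 0, 8, [((6 : ℤ), (⟨8,0,1,0⟩ : Mon))]⟩,
  ⟨-3754935360, 1, 1, 0, 0, 9, [((4 : ℤ), (⟨9,1,0,0⟩ : Mon))]⟩,
  ⟨15118488, 1, 0, 0, 0, 10, [((6 : ℤ), (⟨11,0,0,0⟩ : Mon))]⟩,
  ⟨-57915, 0, 0, 0, 0, 11, [((24 : ℤ), (⟨11,0,0,0⟩ : Mon))]⟩]

/-- `e1^pad * G` -/
def GLst : List (ℤ × Mon) := [((-256 : ℤ), (⟨6,1,1,0⟩ : Mon)), ((-192 : ℤ), (⟨7,2,0,0⟩ : Mon)), ((416 : ℤ), (⟨8,0,1,0⟩ : Mon)), ((7 : ℤ), (⟨11,0,0,0⟩ : Mon))]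

/-- `e1^pad * 9216 α` -/
def ALst : List (ℤ × Mon) := [((1140129792 : ℤ), (⟨3,0,0,2⟩ : Mon)), ((-274636800 : ℤ), (⟨4,0,1,1⟩ : Mon)), ((16833024 : ℤ), (⟨5,0,2,0⟩ : Mon)), ((32348160 : ℤ), (⟨5,1,0,1⟩ : Mon)), ((-2292480 : ℤ), (⟨6,1,1,0⟩ : Mon)), ((-5868288 : ℤ), (⟨7,0,0,1⟩ : Mon)), ((34432 : ℤ), (⟨7,2,0,0⟩ : Mon)), ((296208 : ℤ), (⟨8,0,1,0⟩ : Mon)), ((-8832 : ℤ), (⟨9,1,0,0⟩ : Mon)), ((2340 : ℤ), (⟨11,0,0,0⟩ : Mon))]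

/-- the products -/
def X : List (List (ℤ × Mon) × List (ℤ × Mon)) := [(GLst, ALst), (ALst, GLst)]

set_option maxRecDepth 1000000 in
theorem tab_ok : Crest.Agent.Lib.Bc.PolyFast.check 4 (.num 24 * eP) (linE4 (toL rows)) = true := by decide +kernel

set_option maxRecDepth 1000000 in
theorem rows_ok : rows.all rowOK = true := by decide +kernel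

end Crest.Agent.Lib.Bc.Q4I.BridgeData
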