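import Crest.Agent.Lib.Bc.Q4I.Pf
import Crest.Agent.Lib.Bc.PolyBox
/-!
# Row 163, Q4I: the pointwise inequality for `Pf` (helper27)

`Q - Pf = (Z-1)² (A + η B)`, linear in `η`; `A ≥ 0` and `C = A + u² B ≥ 0` on the region by Bernstein cells (`PolyBox`).
-/
set_option autoImplicit false
namespace Crest.Agent.Lib.Bc.Q4I.PH27
open Crest.Agent.Lib.Bc.PolyBox Crest.Agent.Lib.Bc.Q4I

/-- `2048 A` -/
def TA : Tab := [(4290, 0, 0, 0), (-47077, 1, 0, 0), (-55296, 1, 2, 0), (196206, 2, 0, 0), (865510, 2, 1, 0), (-110592, 2, 2, 0), (-379597, 3, 0, 0), (-3638424, 3, 1, 0), (-165888, 3, 2, 0), (404256, 4, 0, 0), (6150294, 4, 1, 0), (3135486, 4, 2, 0), (-257673, 5, 0, 0), (-5431032, 5, 1, 0), (-6671876, 5, 2, 0), (101098, 6, 0, 0), (2719389, 6, 1, 0), (6016291, 6, 2, 0), (-25744, 6, 3, 0), (-23892, 7, 0, 0), (-777675, 7, 1, 0), (-2689329, 7, 2, 0), (139968, 7, 3, 0), (3111, 8, 0, 0), (118222, 8, 1, 0), (590154, 8, 2,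 0), (-132241, 8, 3, 0), (-15180, 8, 4, 0), (-171, 9, 0, 0), (-7393, 9, 1, 0), (-50847, 9, 2, 0), (30049, 9, 3, 0), (12165, 9, 4, 0)]

/-- `2048 B` -/
def TB : Tab := [(53248, 1, 0, 0), (-12288, 1, 1, 0), (106496, 2, 0, 0), (-24576, 2, 1, 0), (-2769966, 3, 0, 0), (-36864, 3, 1, 0), (11967646, 4, 0, 0), (-49152, 4, 1, 0), (-19277836, 5, 0, 0), (-1627004, 5, 1, 0), (14523046, 6, 0, 0), (1154665, 6, 1, 0), (-5442585, 7, 0, 0), (2224448, 7, 1, 0), (1276784, 7, 2, 0), (977077, 8, 0, 0), (-2245010, 8, 1, 0), (-2009859, 8, 2, 0), (-66767, 9, 0, 0), (489548, 9, 1, 0), (780404, 9, 2, 0), (3780, 9, 3, 0)]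

/-- `2048 C`, `C = A + u² B` -/
def TC : Tab := [(4290, 0, 0, 0), (-47077, 1, 0, 0), (-2048, 1, 2, 0), (-12288, 1, 3, 0), (196206, 2, 0, 0), (865510, 2, 1, 0), (-4096, 2, 2, 0), (-24576, 2, 3, 0), (-379597, 3, 0, 0), (-3638424, 3, 1, 0), (-2935854, 3, 2, 0), (-36864, 3, 3, 0), (404256, 4, 0, 0), (6150294, 4, 1, 0), (15103132, 4, 2, 0), (-49152, 4, 3, 0), (-257673, 5, 0, 0), (-5431032, 5, 1, 0), (-25949712, 5, 2, 0), (-1627004, 5, 3, 0), (101098, 6, 0, 0), (2719389, 6, 1, 0), (20539337, 6, 2, 0), (1128921, 6, 3, 0), (-23892, 7, 0, 0), (-777675, 7, 1, 0), (-8131914, 7, 2, 0), (2364416, 7, 3, 0), (1276784, 7, 4, 0), (3111, 8, 0, 0), (118222, 8, 1, 0), (1567231, 8, 2, 0), (-2377251, 8, 3, 0), (-2025039, 8, 4, 0), (-171, 9, 0, 0), (-7393, 9, 1, 0), (-117614, 9, 2, 0), (519597, 9, 3, 0), (792569, 9, 4, 0), (3780, 9, 5, 0)]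

/-- the grid -/
def gA : Dn := ⟨16384, 16384, 1, 9, 5, 0⟩

/-- the region test -/
def prT (C : Cell) : Bool := Nat.blt (8 * 16384 * 16384) (3 * C.a1 * C.a2 + 2 * C.a1 * 16384)


section glue
variable {g : Dn} {T : Tab} {pr : Cell → Bool}

lemma gL {C : Cell} (h : leafOK g T C = true) : trOK g T pr .leaf C = true := h
lemma gP {C : Cell} (h : pr C = true) : trOK g T pr .prune C = true := h
lemma g1 {m : Nat} {l r : Tr} {a1 b1 a2 b2 a3 b3 : Nat}
    (h1 : trOK g T pr l ⟨a1, m, a2, b2, a3, b3⟩ = true) (h2 : trOK g T pr r ⟨m, b1, a2, b2, a3, b3⟩ = true) :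
    trOK g T pr (.s1 m l r) ⟨a1, b1, a2, b2, a3, b3⟩ = true := by
  simp only [trOK, Bool.and_eq_true]
  exact ⟨h1, h2⟩
lemma g2 {m : Nat} {l r : Tr} {a1 b1 a2 b2 a3 b3 : Nat}
    (h1 : trOK g T pr l ⟨a1, b1, a2, m, a3, b3⟩ = true) (h2 : trOK g T pr r ⟨a1, b1, m, b2, a3, b3⟩ = true) :
    trOK g T pr (.s2 m l r) ⟨a1, b1, a2, b2, a3, b3⟩ = true := by
  simp only [trOK, Bool.and_eq_true]
  exact ⟨h1, h2⟩
end glue

/-- the subdivision of `A` -/
def trA : Tr := (.s1 32768 (.s1 16384 (.s1 8192 (.s1 4096 (.s1 2048 .leaf .leaf) .leaf) (.s2 8192 .leaf .leaf)) (.s1 24576 (.s1 20480 (.s2 8192 .leaf .leaf) (.s2 8192 (.s2 4096 .leaf .leaf) (.s1 22528 .leaf .leaf))) (.s2 8192 (.s2 4096 (.s2 2048 (.s2 1024 .leaf .leaf) .leaf) .leaf) .leaf))) (.s1 49152 (.s2 8192 (.s1 40960 (.s2 4096 (.s2 2048 (.s2 1024 .leaf .leaf) (.s1 36864 .leaf .leaf)) (.s1 36864 (.s2 6144 (.s1 34816 (.s2 5120 .leaf .leaf) (.s2 5120 .leaf .leaf))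 .leaf) .leaf)) (.s2 4096 (.s2 2048 (.s2 1024 (.s2 512 .leaf .leaf) .leaf) .leaf) .leaf)) .leaf) (.s2 8192 (.s2 4096 (.s2 2048 (.s2 1024 (.s1 57344 (.s2 512 (.s2 256 .leaf (.s1 53248 .leaf .leaf)) .leaf) (.s1 61440 .leaf (.s2 512 (.s1 63488 (.s2 256 .leaf (.s1 62464 .leaf (.s1 62976 .leaf (.s2 384 (.s2 320 .leaf (.s1 63232 .leaf (.s2 352 .leaf (.s1 63360 .leaf (.s2 368 (.s1 63424 .leaf (.s2 360 .leaf (.s1 63456 (.s2 364 .leaf .prune) .prune))) (.s1 63424 (.s2 376 (.s1 63392 .leaf (.s2 372 .leaf .prune)) .prune) .prune)))))) (.s1 63232 (.s2 448 (.s1 63104 .leaf (.s2 416 .leaf (.s1 63168 .leaf .prune))) .prune) (.s2 448 (.s1 63360 (.s2 416 (.s1 63296 (.s2 400 .leaf .prune) (.s2 400 (.s2 392 (.s1 63328 .leaf .prune) .prune) .prune)) .prune) .prune) .prune)))))) (.s2 256 (.s2 128 .leaf (.s1 64512 (.s2 192 .leaf (.s1 64000 .leaf (.s2 224 .leaf (.s1 64256 .leaf .prune)))) (.s2 192 (.s1 65024 .leaf .prune) .prune)))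 (.s1 64512 (.s2 384 (.s1 64000 (.s2 320 (.s2 288 .leaf (.s1 63744 .leaf (.s2 304 (.s1 63872 .leaf .prune) (.s1 63872 (.s2 312 (.s1 63808 .leaf .prune) .prune) .prune)))) (.s1 63744 (.s2 352 (.s1 63616 (.s2 336 .leaf (.s1 63552 (.s2 344 .leaf (.s1 63520 .leaf (.s2 348 .leaf .prune))) (.s2 344 (.s1 63584 .leaf .prune) .prune))) (.s2 336 (.s2 328 (.s1 63680 .leaf .prune) (.s1 63680 (.s1 63648 (.s2 332 .leaf .prune) .prune) .prune)) .prune)) (.s1 63616 (.s2 368 (.s1 63552 (.s2 360 (.s1 63520 (.s2 356 (.s1 63504 .leaf .prune) .prune) .prune) .prune) .prune) .prune) .prune)) .prune)) (.s2 320 (.s2 288 (.s1 64256 (.s2 272 (.s1 64128 .leaf .prune) .prune) .prune) .prune) .prune)) .prune) .prune))) (.s1 63488 (.s2 768 (.s2 640 (.s1 62464 .leaf (.s1 62976 .leaf .prune)) (.s1 62464 .leaf .prune)) .prune) .prune)))) (.s2 1536 (.s1 57344 .leaf (.s2 1280 (.s1 61440 .leaf .prune) .leaf)) .leaf)) .leaf) .prune) .prune)))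

/-- the subdivision of `C` -/
def trC : Tr := (.s1 32768 (.s1 16384 (.s1 8192 (.s2 8192 (.s1 4096 .leaf .leaf) (.s1 4096 .leaf (.s2 12288 .leaf (.s2 14336 .leaf (.s1 6144 .leaf .leaf))))) (.s2 8192 .leaf (.s2 12288 .leaf (.s1 12288 .leaf (.s2 14336 .leaf (.s2 15360 .leaf (.s1 14336 .leaf .leaf))))))) (.s1 24576 (.s1 20480 (.s2 8192 .leaf .leaf) (.s2 8192 (.s2 4096 .leaf .leaf) (.s1 22528 (.s1 21504 .leaf (.s2 12288 .leaf .leaf)) (.s2 12288 (.s2 10240 .leaf .leaf) .leaf)))) (.s2 8192 (.s2 4096 (.s2 2048 .leaf (.s1 28672 .leaf (.s2 3072 .leaf (.s1 30720 .leaf (.s2 3584 .leaf .leaf))))) (.s1 28672 (.s2 6144 (.s1 26624 .leaf (.s2 5120 .leaf .leaf)) .leaf) (.s2 6144 (.s1 30720 (.s2 5120 .leaf .leaf) .leaf) .leaf))) .leaf))) (.s1 49152 (.s2 8192 (.s2 4096 (.s1 40960 (.s2 2048 (.s2 1024 .leaf (.s1 36864 (.s2 1536 .leaf .leaf) (.s2 1536 .leaf .leaf))) (.s1 36864 (.s2 3072 (.s1 34816 (.s2 2560 .leaf (.s1 33792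 .leaf .leaf)) (.s2 2560 .leaf .leaf)) .leaf) .leaf)) (.s2 2048 (.s2 1024 (.s2 512 (.s2 256 .leaf (.s1 45056 .leaf (.s2 384 .leaf .leaf))) (.s1 45056 (.s2 768 .leaf .leaf) .leaf)) .leaf) .leaf)) .leaf) .leaf) (.s2 8192 (.s2 4096 (.s2 2048 (.s2 1024 (.s2 512 (.s2 256 (.s2 128 (.s1 57344 .leaf .leaf) (.s1 57344 (.s1 53248 .leaf .leaf) .leaf)) (.s1 57344 (.s1 53248 (.s2 384 .leaf .leaf) .leaf) .leaf)) .leaf) .leaf) .leaf) .prune) .prune)))

set_option maxRecDepth 100000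

theorem lA0 : leafOK gA TA ⟨0, 2048, 0, 16384, 0, 1⟩ = true := by decide +kernel
theorem lA1 : leafOK gA TA ⟨2048, 4096, 0, 16384, 0, 1⟩ = true := by decide +kernel
theorem lA2 : leafOK gA TA ⟨4096, 8192, 0, 16384, 0, 1⟩ = true := by decide +kernel
theorem lA3 : leafOK gA TA ⟨8192, 16384, 0, 8192, 0, 1⟩ = true := by decide +kernel
theorem lA4 : leafOK gA TA ⟨8192, 16384, 8192, 16384, 0, 1⟩ = true := by decide +kernel
theorem lA5 : leafOK gA TA ⟨16384, 20480, 0, 8192, 0, 1⟩ = true := by decide +kernel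
theorem lA6 : leafOK gA TA ⟨16384, 20480, 8192, 16384, 0, 1⟩ = true := by decide +kernel
theorem lA7 : leafOK gA TA ⟨20480, 24576, 0, 4096, 0, 1⟩ = true := by decide +kernel
theorem lA8 : leafOK gA TA ⟨20480, 24576, 4096, 8192, 0, 1⟩ = true := by decide +kernel
theorem lA9 : leafOK gA TA ⟨20480, 22528, 8192, 16384, 0, 1⟩ = true := by decide +kernel
theorem lA10 : leafOK gA TA ⟨22528, 24576, 8192, 16384, 0, 1⟩ = true := by decide +kernel
theorem lA11 : leafOK gA TA ⟨24576, 32768, 0, 1024, 0, 1⟩ = true := by decide +kernel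
theorem lA12 : leafOK gA TA ⟨24576, 32768, 1024, 2048, 0, 1⟩ = true := by decide +kernel
theorem lA13 : leafOK gA TA ⟨24576, 32768, 2048, 4096, 0, 1⟩ = true := by decide +kernel
theorem lA14 : leafOK gA TA ⟨24576, 32768, 4096, 8192, 0, 1⟩ = true := by decide +kernel
theorem lA15 : leafOK gA TA ⟨24576, 32768, 8192, 16384, 0, 1⟩ = true := by decide +kernel
theorem lA16 : leafOK gA TA ⟨32768, 40960, 0, 1024, 0, 1⟩ = true := by decide +kernel
theorem lA17 : leafOK gA TA ⟨32768, 40960, 1024, 2048, 0, 1⟩ = true := by decide +kernel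
theorem lA18 : leafOK gA TA ⟨32768, 36864, 2048, 4096, 0, 1⟩ = true := by decide +kernel
theorem lA19 : leafOK gA TA ⟨36864, 40960, 2048, 4096, 0, 1⟩ = true := by decide +kernel
theorem lA20 : leafOK gA TA ⟨32768, 34816, 4096, 5120, 0, 1⟩ = true := by decide +kernel
theorem lA21 : leafOK gA TA ⟨32768, 34816, 5120, 6144, 0, 1⟩ = true := by decide +kernel
theorem lA22 : leafOK gA TA ⟨34816, 36864, 4096, 5120, 0, 1⟩ = true := by decide +kernel
theorem lA23 : leafOK gA TA ⟨34816, 36864, 5120, 6144, 0, 1⟩ = true := by decide +kernel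
theorem lA24 : leafOK gA TA ⟨32768, 36864, 6144, 8192, 0, 1⟩ = true := by decide +kernel
theorem lA25 : leafOK gA TA ⟨36864, 40960, 4096, 8192, 0, 1⟩ = true := by decide +kernel
theorem lA26 : leafOK gA TA ⟨40960, 49152, 0, 512, 0, 1⟩ = true := by decide +kernel
theorem lA27 : leafOK gA TA ⟨40960, 49152, 512, 1024, 0, 1⟩ = true := by decide +kernel
theorem lA28 : leafOK gA TA ⟨40960, 49152, 1024, 2048, 0, 1⟩ = true := by decide +kernel
theorem lA29 : leafOK gA TA ⟨40960, 49152, 2048, 4096, 0, 1⟩ = true := by decide +kernel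
theorem lA30 : leafOK gA TA ⟨40960, 49152, 4096, 8192, 0, 1⟩ = true := by decide +kernel
theorem lA31 : leafOK gA TA ⟨32768, 49152, 8192, 16384, 0, 1⟩ = true := by decide +kernel
theorem lA32 : leafOK gA TA ⟨49152, 57344, 0, 256, 0, 1⟩ = true := by decide +kernel
theorem lA33 : leafOK gA TA ⟨49152, 53248, 256, 512, 0, 1⟩ = true := by decide +kernel
theorem lA34 : leafOK gA TA ⟨53248, 57344, 256, 512, 0, 1⟩ = true := by decide +kernel
theorem lA35 : leafOK gA TA ⟨49152, 57344, 512, 1024, 0, 1⟩ = true := by decide +kernel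
theorem lA36 : leafOK gA TA ⟨57344, 61440, 0, 1024, 0, 1⟩ = true := by decide +kernel
theorem lA37 : leafOK gA TA ⟨61440, 63488, 0, 256, 0, 1⟩ = true := by decide +kernel
theorem lA38 : leafOK gA TA ⟨61440, 62464, 256, 512, 0, 1⟩ = true := by decide +kernel
theorem lA39 : leafOK gA TA ⟨62464, 62976, 256, 512, 0, 1⟩ = true := by decide +kernel
theorem lA40 : leafOK gA TA ⟨62976, 63488, 256, 320, 0, 1⟩ = true := by decide +kernel
theorem lA41 : leafOK gA TA ⟨62976, 63232, 320, 384, 0, 1⟩ = true := by decide +kernel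
theorem lA42 : leafOK gA TA ⟨63232, 63488, 320, 352, 0, 1⟩ = true := by decide +kernel
theorem lA43 : leafOK gA TA ⟨63232, 63360, 352, 384, 0, 1⟩ = true := by decide +kernel
theorem lA44 : leafOK gA TA ⟨63360, 63424, 352, 368, 0, 1⟩ = true := by decide +kernel
theorem lA45 : leafOK gA TA ⟨63424, 63488, 352, 360, 0, 1⟩ = true := by decide +kernel
theorem lA46 : leafOK gA TA ⟨63424, 63456, 360, 364, 0, 1⟩ = true := by decide +kernel
theorem lA47 : leafOK gA TA ⟨63360, 63392, 368, 376, 0, 1⟩ = true := by decide +kernel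
theorem lA48 : leafOK gA TA ⟨63392, 63424, 368, 372, 0, 1⟩ = true := by decide +kernel
theorem lA49 : leafOK gA TA ⟨62976, 63104, 384, 448, 0, 1⟩ = true := by decide +kernel
theorem lA50 : leafOK gA TA ⟨63104, 63232, 384, 416, 0, 1⟩ = true := by decide +kernel
theorem lA51 : leafOK gA TA ⟨63104, 63168, 416, 448, 0, 1⟩ = true := by decide +kernel
theorem lA52 : leafOK gA TA ⟨63232, 63296, 384, 400, 0, 1⟩ = true := by decide +kernel
theorem lA53 : leafOK gA TA ⟨63296, 63328, 384, 392, 0, 1⟩ = true := by decide +kernel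
theorem lA54 : leafOK gA TA ⟨63488, 65536, 0, 128, 0, 1⟩ = true := by decide +kernel
theorem lA55 : leafOK gA TA ⟨63488, 64512, 128, 192, 0, 1⟩ = true := by decide +kernel
theorem lA56 : leafOK gA TA ⟨63488, 64000, 192, 256, 0, 1⟩ = true := by decide +kernel
theorem lA57 : leafOK gA TA ⟨64000, 64512, 192, 224, 0, 1⟩ = true := by decide +kernel
theorem lA58 : leafOK gA TA ⟨64000, 64256, 224, 256, 0, 1⟩ = true := by decide +kernel
theorem lA59 : leafOK gA TA ⟨64512, 65024, 128, 192, 0, 1⟩ = true := by decide +kernel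
theorem lA60 : leafOK gA TA ⟨63488, 64000, 256, 288, 0, 1⟩ = true := by decide +kernel
theorem lA61 : leafOK gA TA ⟨63488, 63744, 288, 320, 0, 1⟩ = true := by decide +kernel
theorem lA62 : leafOK gA TA ⟨63744, 63872, 288, 304, 0, 1⟩ = true := by decide +kernel
theorem lA63 : leafOK gA TA ⟨63744, 63808, 304, 312, 0, 1⟩ = true := by decide +kernel
theorem lA64 : leafOK gA TA ⟨63488, 63616, 320, 336, 0, 1⟩ = true := by decide +kernel
theorem lA65 : leafOK gA TA ⟨63488, 63552, 336, 344, 0, 1⟩ = true := by decide +kernel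
theorem lA66 : leafOK gA TA ⟨63488, 63520, 344, 352, 0, 1⟩ = true := by decide +kernel
theorem lA67 : leafOK gA TA ⟨63520, 63552, 344, 348, 0, 1⟩ = true := by decide +kernel
theorem lA68 : leafOK gA TA ⟨63552, 63584, 336, 344, 0, 1⟩ = true := by decide +kernel
theorem lA69 : leafOK gA TA ⟨63616, 63680, 320, 328, 0, 1⟩ = true := by decide +kernel
theorem lA70 : leafOK gA TA ⟨63616, 63648, 328, 332, 0, 1⟩ = true := by decide +kernel
theorem lA71 : leafOK gA TA ⟨63488, 63504, 352, 356, 0, 1⟩ = true := by decide +kernel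
theorem lA72 : leafOK gA TA ⟨64000, 64128, 256, 272, 0, 1⟩ = true := by decide +kernel
theorem lA73 : leafOK gA TA ⟨61440, 62464, 512, 640, 0, 1⟩ = true := by decide +kernel
theorem lA74 : leafOK gA TA ⟨62464, 62976, 512, 640, 0, 1⟩ = true := by decide +kernel
theorem lA75 : leafOK gA TA ⟨61440, 62464, 640, 768, 0, 1⟩ = true := by decide +kernel
theorem lA76 : leafOK gA TA ⟨49152, 57344, 1024, 1536, 0, 1⟩ = true := by decide +kernel
theorem lA77 : leafOK gA TA ⟨57344, 61440, 1024, 1280, 0, 1⟩ = true := by decide +kernel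
theorem lA78 : leafOK gA TA ⟨57344, 65536, 1280, 1536, 0, 1⟩ = true := by decide +kernel
theorem lA79 : leafOK gA TA ⟨49152, 65536, 1536, 2048, 0, 1⟩ = true := by decide +kernel
theorem lA80 : leafOK gA TA ⟨49152, 65536, 2048, 4096, 0, 1⟩ = true := by decide +kernel
theorem lC0 : leafOK gA TC ⟨0, 4096, 0, 8192, 0, 1⟩ = true := by decide +kernel
theorem lC1 : leafOK gA TC ⟨4096, 8192, 0, 8192, 0, 1⟩ = true := by decide +kernel
theorem lC2 : leafOK gA TC ⟨0, 4096, 8192, 16384, 0, 1⟩ = true := by decide +kernel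
theorem lC3 : leafOK gA TC ⟨4096, 8192, 8192, 12288, 0, 1⟩ = true := by decide +kernel
theorem lC4 : leafOK gA TC ⟨4096, 8192, 12288, 14336, 0, 1⟩ = true := by decide +kernel
theorem lC5 : leafOK gA TC ⟨4096, 6144, 14336, 16384, 0, 1⟩ = true := by decide +kernel
theorem lC6 : leafOK gA TC ⟨6144, 8192, 14336, 16384, 0, 1⟩ = true := by decide +kernel
theorem lC7 : leafOK gA TC ⟨8192, 16384, 0, 8192, 0, 1⟩ = true := by decide +kernel
theorem lC8 : leafOK gA TC ⟨8192, 16384, 8192, 12288, 0, 1⟩ = true := by decide +kernel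
theorem lC9 : leafOK gA TC ⟨8192, 12288, 12288, 16384, 0, 1⟩ = true := by decide +kernel
theorem lC10 : leafOK gA TC ⟨12288, 16384, 12288, 14336, 0, 1⟩ = true := by decide +kernel
theorem lC11 : leafOK gA TC ⟨12288, 16384, 14336, 15360, 0, 1⟩ = true := by decide +kernel
theorem lC12 : leafOK gA TC ⟨12288, 14336, 15360, 16384, 0, 1⟩ = true := by decide +kernel
theorem lC13 : leafOK gA TC ⟨14336, 16384, 15360, 16384, 0, 1⟩ = true := by decide +kernel
theorem lC14 : leafOK gA TC ⟨16384, 20480, 0, 8192, 0, 1⟩ = true := by decide +kernel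
theorem lC15 : leafOK gA TC ⟨16384, 20480, 8192, 16384, 0, 1⟩ = true := by decide +kernel
theorem lC16 : leafOK gA TC ⟨20480, 24576, 0, 4096, 0, 1⟩ = true := by decide +kernel
theorem lC17 : leafOK gA TC ⟨20480, 24576, 4096, 8192, 0, 1⟩ = true := by decide +kernel
theorem lC18 : leafOK gA TC ⟨20480, 21504, 8192, 16384, 0, 1⟩ = true := by decide +kernel
theorem lC19 : leafOK gA TC ⟨21504, 22528, 8192, 12288, 0, 1⟩ = true := by decide +kernel
theorem lC20 : leafOK gA TC ⟨21504, 22528, 12288, 16384, 0, 1⟩ = true := by decide +kernel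
theorem lC21 : leafOK gA TC ⟨22528, 24576, 8192, 10240, 0, 1⟩ = true := by decide +kernel
theorem lC22 : leafOK gA TC ⟨22528, 24576, 10240, 12288, 0, 1⟩ = true := by decide +kernel
theorem lC23 : leafOK gA TC ⟨22528, 24576, 12288, 16384, 0, 1⟩ = true := by decide +kernel
theorem lC24 : leafOK gA TC ⟨24576, 32768, 0, 2048, 0, 1⟩ = true := by decide +kernel
theorem lC25 : leafOK gA TC ⟨24576, 28672, 2048, 4096, 0, 1⟩ = true := by decide +kernel
theorem lC26 : leafOK gA TC ⟨28672, 32768, 2048, 3072, 0, 1⟩ = true := by decide +kernel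
theorem lC27 : leafOK gA TC ⟨28672, 30720, 3072, 4096, 0, 1⟩ = true := by decide +kernel
theorem lC28 : leafOK gA TC ⟨30720, 32768, 3072, 3584, 0, 1⟩ = true := by decide +kernel
theorem lC29 : leafOK gA TC ⟨30720, 32768, 3584, 4096, 0, 1⟩ = true := by decide +kernel
theorem lC30 : leafOK gA TC ⟨24576, 26624, 4096, 6144, 0, 1⟩ = true := by decide +kernel
theorem lC31 : leafOK gA TC ⟨26624, 28672, 4096, 5120, 0, 1⟩ = true := by decide +kernel
theorem lC32 : leafOK gA TC ⟨26624, 28672, 5120, 6144, 0, 1⟩ = true := by decide +kernel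
theorem lC33 : leafOK gA TC ⟨24576, 28672, 6144, 8192, 0, 1⟩ = true := by decide +kernel
theorem lC34 : leafOK gA TC ⟨28672, 30720, 4096, 5120, 0, 1⟩ = true := by decide +kernel
theorem lC35 : leafOK gA TC ⟨28672, 30720, 5120, 6144, 0, 1⟩ = true := by decide +kernel
theorem lC36 : leafOK gA TC ⟨30720, 32768, 4096, 6144, 0, 1⟩ = true := by decide +kernel
theorem lC37 : leafOK gA TC ⟨28672, 32768, 6144, 8192, 0, 1⟩ = true := by decide +kernel
theorem lC38 : leafOK gA TC ⟨24576, 32768, 8192, 16384, 0, 1⟩ = true := by decide +kernel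
theorem lC39 : leafOK gA TC ⟨32768, 40960, 0, 1024, 0, 1⟩ = true := by decide +kernel
theorem lC40 : leafOK gA TC ⟨32768, 36864, 1024, 1536, 0, 1⟩ = true := by decide +kernel
theorem lC41 : leafOK gA TC ⟨32768, 36864, 1536, 2048, 0, 1⟩ = true := by decide +kernel
theorem lC42 : leafOK gA TC ⟨36864, 40960, 1024, 1536, 0, 1⟩ = true := by decide +kernel
theorem lC43 : leafOK gA TC ⟨36864, 40960, 1536, 2048, 0, 1⟩ = true := by decide +kernel
theorem lC44 : leafOK gA TC ⟨32768, 34816, 2048, 2560, 0, 1⟩ = true := by decide +kernel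
theorem lC45 : leafOK gA TC ⟨32768, 33792, 2560, 3072, 0, 1⟩ = true := by decide +kernel
theorem lC46 : leafOK gA TC ⟨33792, 34816, 2560, 3072, 0, 1⟩ = true := by decide +kernel
theorem lC47 : leafOK gA TC ⟨34816, 36864, 2048, 2560, 0, 1⟩ = true := by decide +kernel
theorem lC48 : leafOK gA TC ⟨34816, 36864, 2560, 3072, 0, 1⟩ = true := by decide +kernel
theorem lC49 : leafOK gA TC ⟨32768, 36864, 3072, 4096, 0, 1⟩ = true := by decide +kernel
theorem lC50 : leafOK gA TC ⟨36864, 40960, 2048, 4096, 0, 1⟩ = true := by decide +kernel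
theorem lC51 : leafOK gA TC ⟨40960, 49152, 0, 256, 0, 1⟩ = true := by decide +kernel
theorem lC52 : leafOK gA TC ⟨40960, 45056, 256, 512, 0, 1⟩ = true := by decide +kernel
theorem lC53 : leafOK gA TC ⟨45056, 49152, 256, 384, 0, 1⟩ = true := by decide +kernel
theorem lC54 : leafOK gA TC ⟨45056, 49152, 384, 512, 0, 1⟩ = true := by decide +kernel
theorem lC55 : leafOK gA TC ⟨40960, 45056, 512, 768, 0, 1⟩ = true := by decide +kernel
theorem lC56 : leafOK gA TC ⟨40960, 45056, 768, 1024, 0, 1⟩ = true := by decide +kernel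
theorem lC57 : leafOK gA TC ⟨45056, 49152, 512, 1024, 0, 1⟩ = true := by decide +kernel
theorem lC58 : leafOK gA TC ⟨40960, 49152, 1024, 2048, 0, 1⟩ = true := by decide +kernel
theorem lC59 : leafOK gA TC ⟨40960, 49152, 2048, 4096, 0, 1⟩ = true := by decide +kernel
theorem lC60 : leafOK gA TC ⟨32768, 49152, 4096, 8192, 0, 1⟩ = true := by decide +kernel
theorem lC61 : leafOK gA TC ⟨32768, 49152, 8192, 16384, 0, 1⟩ = true := by decide +kernel
theorem lC62 : leafOK gA TC ⟨49152, 57344, 0, 128, 0, 1⟩ = true := by decide +kernel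
theorem lC63 : leafOK gA TC ⟨57344, 65536, 0, 128, 0, 1⟩ = true := by decide +kernel
theorem lC64 : leafOK gA TC ⟨49152, 53248, 128, 256, 0, 1⟩ = true := by decide +kernel
theorem lC65 : leafOK gA TC ⟨53248, 57344, 128, 256, 0, 1⟩ = true := by decide +kernel
theorem lC66 : leafOK gA TC ⟨57344, 65536, 128, 256, 0, 1⟩ = true := by decide +kernel
theorem lC67 : leafOK gA TC ⟨49152, 53248, 256, 384, 0, 1⟩ = true := by decide +kernel
theorem lC68 : leafOK gA TC ⟨49152, 53248, 384, 512, 0, 1⟩ = true := by decide +kernel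
theorem lC69 : leafOK gA TC ⟨53248, 57344, 256, 512, 0, 1⟩ = true := by decide +kernel
theorem lC70 : leafOK gA TC ⟨57344, 65536, 256, 512, 0, 1⟩ = true := by decide +kernel
theorem lC71 : leafOK gA TC ⟨49152, 65536, 512, 1024, 0, 1⟩ = true := by decide +kernel
theorem lC72 : leafOK gA TC ⟨49152, 65536, 1024, 2048, 0, 1⟩ = true := by decide +kernel
theorem lC73 : leafOK gA TC ⟨49152, 65536, 2048, 4096, 0, 1⟩ = true := by decide +kernel

theorem chkA : trOK gA TA prT trA ⟨0, 65536, 0, 16384, 0, 1⟩ = true :=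
  (g1 (g1 (g1 (g1 (g1 (gL lA0) (gL lA1)) (gL lA2)) (g2 (gL lA3) (gL lA4))) (g1 (g1 (g2 (gL lA5) (gL lA6)) (g2 (g2 (gL lA7) (gL lA8)) (g1 (gL lA9) (gL lA10)))) (g2 (g2 (g2 (g2 (gL lA11) (gL lA12)) (gL lA13)) (gL lA14)) (gL lA15)))) (g1 (g2 (g1 (g2 (g2 (g2 (gL lA16) (gL lA17)) (g1 (gL lA18) (gL lA19))) (g1 (g2 (g1 (g2 (gL lA20) (gL lA21)) (g2 (gL lA22) (gL lA23))) (gL lA24)) (gL lA25))) (g2 (g2 (g2 (g2 (gL lA26) (gL lA27)) (gL lA28)) (gL lA29)) (gL lA30))) (gL lA31)) (g2 (g2 (g2 (g2 (g1 (g2 (g2 (gL lA32) (g1 (gL lA33) (gL lA34))) (gL lA35)) (g1 (gL lA36) (g2 (g1 (g2 (gL lA37) (g1 (gL lA38) (g1 (gL lA39) (g2 (g2 (gL lA40) (g1 (gL lA41) (g2 (gL lA42) (g1 (gL lA43) (g2 (g1 (gL lA44) (g2 (gL lA45) (g1 (g2 (gL lA46) (gP (by decide))) (gP (by decide))))) (g1 (g2 (g1 (gL lA47) (g2 (gL lA48) (gP (by decide)))) (gP (by decide))) (gP (by decide)))))))) (g1 (g2 (g1 (gL lA49) (g2 (gL lA50) (g1 (gL lA51) (gP (by decide)))))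 (gP (by decide))) (g2 (g1 (g2 (g1 (g2 (gL lA52) (gP (by decide))) (g2 (g2 (g1 (gL lA53) (gP (by decide))) (gP (by decide))) (gP (by decide)))) (gP (by decide))) (gP (by decide))) (gP (by decide)))))))) (g2 (g2 (gL lA54) (g1 (g2 (gL lA55) (g1 (gL lA56) (g2 (gL lA57) (g1 (gL lA58) (gP (by decide)))))) (g2 (g1 (gL lA59) (gP (by decide))) (gP (by decide))))) (g1 (g2 (g1 (g2 (g2 (gL lA60) (g1 (gL lA61) (g2 (g1 (gL lA62) (gP (by decide))) (g1 (g2 (g1 (gL lA63) (gP (by decide))) (gP (by decide))) (gP (by decide)))))) (g1 (g2 (g1 (g2 (gL lA64) (g1 (g2 (gL lA65) (g1 (gL lA66) (g2 (gL lA67) (gP (by decide))))) (g2 (g1 (gL lA68) (gP (by decide))) (gP (by decide))))) (g2 (g2 (g1 (gL lA69) (gP (by decide))) (g1 (g1 (g2 (gL lA70) (gP (by decide))) (gP (by decide))) (gP (by decide)))) (gP (by decide)))) (g1 (g2 (g1 (g2 (g1 (g2 (g1 (gL lA71) (gP (by decide))) (gP (by decide))) (gP (by decide))) (gP (by decide))) (gP (by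 decide))) (gP (by decide))) (gP (by decide)))) (gP (by decide)))) (g2 (g2 (g1 (g2 (g1 (gL lA72) (gP (by decide))) (gP (by decide))) (gP (by decide))) (gP (by decide))) (gP (by decide)))) (gP (by decide))) (gP (by decide))))) (g1 (g2 (g2 (g1 (gL lA73) (g1 (gL lA74) (gP (by decide)))) (g1 (gL lA75) (gP (by decide)))) (gP (by decide))) (gP (by decide)))))) (g2 (g1 (gL lA76) (g2 (g1 (gL lA77) (gP (by decide))) (gL lA78))) (gL lA79))) (gL lA80)) (gP (by decide))) (gP (by decide)))))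

theorem chkC : trOK gA TC prT trC ⟨0, 65536, 0, 16384, 0, 1⟩ = true :=
  (g1 (g1 (g1 (g2 (g1 (gL lC0) (gL lC1)) (g1 (gL lC2) (g2 (gL lC3) (g2 (gL lC4) (g1 (gL lC5) (gL lC6)))))) (g2 (gL lC7) (g2 (gL lC8) (g1 (gL lC9) (g2 (gL lC10) (g2 (gL lC11) (g1 (gL lC12) (gL lC13)))))))) (g1 (g1 (g2 (gL lC14) (gL lC15)) (g2 (g2 (gL lC16) (gL lC17)) (g1 (g1 (gL lC18) (g2 (gL lC19) (gL lC20))) (g2 (g2 (gL lC21) (gL lC22)) (gL lC23))))) (g2 (g2 (g2 (gL lC24) (g1 (gL lC25) (g2 (gL lC26) (g1 (gL lC27) (g2 (gL lC28) (gL lC29)))))) (g1 (g2 (g1 (gL lC30) (g2 (gL lC31) (gL lC32))) (gL lC33)) (g2 (g1 (g2 (gL lC34) (gL lC35)) (gL lC36)) (gL lC37)))) (gL lC38)))) (g1 (g2 (g2 (g1 (g2 (g2 (gL lC39) (g1 (g2 (gL lC40) (gL lC41)) (g2 (gL lC42) (gL lC43)))) (g1 (g2 (g1 (g2 (gL lC44) (g1 (gL lC45) (gL lC46))) (g2 (gL lC47) (gL lC48))) (gL lC49)) (gL lC50))) (g2 (g2 (g2 (g2 (gL lC51) (g1 (gL lC52) (g2 (gL lC53) (gL lC54)))) (g1 (g2 (gL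 lC55) (gL lC56)) (gL lC57))) (gL lC58)) (gL lC59))) (gL lC60)) (gL lC61)) (g2 (g2 (g2 (g2 (g2 (g2 (g2 (g1 (gL lC62) (gL lC63)) (g1 (g1 (gL lC64) (gL lC65)) (gL lC66))) (g1 (g1 (g2 (gL lC67) (gL lC68)) (gL lC69)) (gL lC70))) (gL lC71)) (gL lC72)) (gL lC73)) (gP (by decide))) (gP (by decide)))))

/-- the region test is sound -/
theorem prT_sound (C : Cell) (h : prT C = true) (Z u s : ℝ) (hc : InCell gA C Z u s) (hK : 3 * (u * Z) + 2 * Z ≤ 8) : False := by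
  obtain ⟨c1, -, c3, -, -, -⟩ := hc
  simp only [prT, Nat.blt_eq] at h
  have h' : ((8 * 16384 * 16384 : ℕ) : ℝ) < ((3 * C.a1 * C.a2 + 2 * C.a1 * 16384 : ℕ) : ℝ) := by exact_mod_cast h
  push_cast at h'
  simp only [gA] at c1 c3
  push_cast at c1 c3
  have a1 : (0 : ℝ) ≤ C.a1 := by positivity
  have a2 : (0 : ℝ) ≤ C.a2 := by positivity
  have k1 : (C.a1 : ℝ) * C.a2 ≤ (16384 * Z) * (16384 * u) := mul_le_mul c1 c3 a2 (by linarith)
  nlinarith [k1]

theorem evalA_nonneg (Z u : ℝ) (h1 : 0 ≤ Z) (h2 : Z ≤ 4) (h3 : 0 ≤ u) (h4 : u ≤ 1) (hK : 3 * (u * Z) + 2 * Z ≤ 8) :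
    0 ≤ evalT TA Z u 0 := by
  refine tree_sound gA TA (by decide) (by decide) (by decide) (by decide) (fun Z u _ => 3 * (u * Z) + 2 * Z ≤ 8) prT
    prT_sound trA _ chkA Z u 0 ?_ hK
  simp only [InCell, gA]
  norm_num
  refine ⟨by linarith, by linarith, by linarith, by linarith⟩

theorem evalC_nonneg (Z u : ℝ) (h1 : 0 ≤ Z) (h2 : Z ≤ 4) (h3 : 0 ≤ u) (h4 : u ≤ 1) (hK : 3 * (u * Z) + 2 * Z ≤ 8) :
    0 ≤ evalT TC Z u 0 := by
  refine tree_sound gA TC (by decide) (by decide) (by decide) (by decide) (fun Z u _ => 3 * (u * Z) + 2 * Z ≤ 8) prT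
    prT_sound trC _ chkC Z u 0 ?_ hK
  simp only [InCell, gA]
  norm_num
  refine ⟨by linarith, by linarith, by linarith, by linarith⟩

/-- the identity of the pointwise inequality -/
theorem key_id (Z u η : ℝ) :
    2048 * (Z * (7 + 26 * η - 27 * u ^ 2 - 6 * u * η) - Pf Z (u * Z ^ 2) (η * Z ^ 3))
      = (Z - 1) ^ 2 * (evalT TA Z u 0 + η * evalT TB Z u 0) := by
  simp only [Pf, Rf, P00, P01, P10, P11, P20, P21, P30, P31, P40, evalT, TA, TB]
  push_cast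
  ring

theorem C_id (Z u : ℝ) : evalT TC Z u 0 = evalT TA Z u 0 + u ^ 2 * evalT TB Z u 0 := by
  simp only [evalT, TA, TB, TC]
  push_cast
  ring

/-- **The pointwise inequality** for `Pf`. -/
theorem hP (Z u η : ℝ) (h0 : 0 < Z) (h4 : Z ≤ 4) (hu0 : 0 ≤ u) (hu1 : u ≤ 1) (hK : u * Z ≤ (2 / 3) * (4 - Z))
    (hη0 : 0 ≤ η) (hη : η ≤ u ^ 2) :
    Pf Z (u * Z ^ 2) (η * Z ^ 3) ≤ Z * (7 + 26 * η - 27 * u ^ 2 - 6 * u * η) := by
  have hK' : 3 * (u * Z) + 2 * Z ≤ 8 := by linarith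
  have hA := evalA_nonneg Z u h0.le h4 hu0 hu1 hK'
  have hC := evalC_nonneg Z u h0.le h4 hu0 hu1 hK'
  have hH : 0 ≤ evalT TA Z u 0 + η * evalT TB Z u 0 := by
    rcases hu0.eq_or_lt with hu | hu
    · have : η = 0 := by
        have : u ^ 2 = 0 := by rw [← hu]; norm_num
        linarith
      rw [this]
      linarith
    · have hu2 : 0 < u ^ 2 := by positivity
      have e : u ^ 2 * (evalT TA Z u 0 + η * evalT TB Z u 0)
          = (u ^ 2 - η) * evalT TA Z u 0 + η * evalT TC Z u 0 := by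
        rw [C_id]
        ring
      have : 0 ≤ u ^ 2 * (evalT TA Z u 0 + η * evalT TB Z u 0) := by
        rw [e]
        exact add_nonneg (mul_nonneg (by linarith) hA) (mul_nonneg hη0 hC)
      exact nonneg_of_mul_nonneg_right this hu2
  have := key_id Z u η
  have h2 : 0 ≤ (Z - 1) ^ 2 * (evalT TA Z u 0 + η * evalT TB Z u 0) := mul_nonneg (sq_nonneg _) hH
  linarith

end Crest.Agent.Lib.Bc.Q4I.PH27
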